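import Vale.Agent.P356.Defs

/-!
The number of sites of a region within distance `R` of its complement is at most a multiple
of the number of its boundary edges.
-/

namespace Vale.Agent.P356

variable {L : ℕ}

/-- The sites of `A` within distance `R` of a site outside `A`. -/
def layer (R : ℕ) (A : Finset (Site L)) : Finset (Site L) :=
  A.filter fun x => ∃ y, y ∉ A ∧ dist1 x y ≤ R

theorem dist1_comm (x y : Site L) : dist1 x y = dist1 y x := by
  unfold dist1; omega

theorem dist1_triangle (x y z : Site L) : dist1 x z ≤ dist1 x y + dist1 y z := by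
  unfold dist1; omega

theorem exists_step (x y : Site L) (h : x ≠ y) :
    ∃ z, dist1 x z = 1 ∧ dist1 z y + 1 = dist1 x y := by
  rcases lt_trichotomy x.1.val y.1.val with h1 | h1 | h1
  · refine ⟨(⟨x.1.val + 1, by omega⟩, x.2), ?_, ?_⟩ <;> simp [dist1] <;> omega
  · rcases lt_trichotomy x.2.val y.2.val with h2 | h2 | h2
    · refine ⟨(x.1, ⟨x.2.val + 1, by omega⟩), ?_, ?_⟩ <;> simp [dist1] <;> omega
    · exact absurd (Prod.ext (Fin.ext h1) (Fin.ext h2)) h
    · refine ⟨(x.1, ⟨x.2.val - 1, by omega⟩), ?_, ?_⟩ <;> simp [dist1] <;> omega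
  · refine ⟨(⟨x.1.val - 1, by omega⟩, x.2), ?_, ?_⟩ <;> simp [dist1] <;> omega

theorem exists_edge (A : Finset (Site L)) (d : ℕ) : ∀ x y : Site L, x ∈ A → y ∉ A →
    dist1 x y = d → ∃ e ∈ edgeBoundary A, dist1 x e.1 ≤ d := by
  induction d with
  | zero =>
    intro x y hx hy h
    refine absurd ?_ hy
    have : x = y := by
      unfold dist1 at h
      exact Prod.ext (Fin.ext (by omega)) (Fin.ext (by omega))
    exact this ▸ hx
  | succ d ih =>
    intro x y hx hy h
    obtain ⟨z, hz1, hz2⟩ := exists_step x y (fun e => hy (e ▸ hx))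
    by_cases hz : z ∈ A
    · obtain ⟨e, he, hle⟩ := ih z y hz hy (by omega)
      refine ⟨e, he, ?_⟩
      have := dist1_triangle x z e.1
      omega
    · refine ⟨(x, z), by simp [edgeBoundary, hx, hz, hz1], ?_⟩
      simp [dist1]

theorem card_ball_le (R : ℕ) (u : Site L) :
    (Finset.univ.filter fun x => dist1 x u ≤ R).card ≤ (2 * R + 1) ^ 2 := by
  refine (Finset.card_le_card_of_injOn
    (fun x : Site L => ((x.1 : ℤ) - u.1, (x.2 : ℤ) - u.2))
    (t := Finset.Icc (-(R : ℤ)) R ×ˢ Finset.Icc (-(R : ℤ)) R) ?_ ?_).trans ?_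
  · intro x hx
    simp only [Finset.mem_coe, Finset.mem_filter, Finset.mem_univ, true_and] at hx
    unfold dist1 at hx
    simp only [Finset.mem_coe, Finset.mem_product, Finset.mem_Icc]
    omega
  · intro x _ y _ h
    simp only [Prod.mk.injEq] at h
    exact Prod.ext (Fin.ext (by omega)) (Fin.ext (by omega))
  · simp only [Finset.card_product, Int.card_Icc, sq]
    have : ((R : ℤ) + 1 - -(R : ℤ)).toNat = 2 * R + 1 := by omega
    rw [this]

theorem card_layer_le (R : ℕ) (A : Finset (Site L)) :
    (layer R A).card ≤ (2 * R + 1) ^ 2 * (edgeBoundary A).card := by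
  have hsub : layer R A ⊆ (edgeBoundary A).biUnion
      fun e => Finset.univ.filter fun x => dist1 x e.1 ≤ R := by
    intro x hx
    obtain ⟨hxA, y, hy, hd⟩ := Finset.mem_filter.1 hx
    obtain ⟨e, he, hle⟩ := exists_edge A _ x y hxA hy rfl
    exact Finset.mem_biUnion.2 ⟨e, he, by simpa using hle.trans hd⟩
  refine (Finset.card_le_card hsub).trans (Finset.card_biUnion_le.trans ?_)
  refine (Finset.sum_le_card_nsmul _ _ _ fun e _ => card_ball_le R e.1).trans ?_
  simp [mul_comm]

end Vale.Agent.P356
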