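import Vale.Agent.P356.Defs

/-!
The algebra of operators acting on a set of sites, and eigenprojections as polynomials.
-/

namespace Vale.Agent.P356

open Matrix

variable {q L : ℕ}

theorem actsOn_zero (X : Finset (Site L)) : ActsOn X (0 : Op q L) :=
  ⟨0, fun σ τ => by simp⟩

theorem actsOn_one (X : Finset (Site L)) : ActsOn X (1 : Op q L) := by
  classical
  refine ⟨1, fun σ τ => ?_⟩
  by_cases h : ∀ x, x ∉ X → σ x = τ x
  · rw [if_pos h, one_apply, one_apply]
    refine if_congr ⟨fun e => by rw [e], fun e => ?_⟩ rfl rfl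
    funext x
    by_cases hx : x ∈ X
    · exact congrFun e ⟨x, hx⟩
    · exact h x hx
  · rw [if_neg h, one_apply, if_neg]
    rintro rfl
    exact h fun _ _ => rfl

theorem ActsOn.add {X : Finset (Site L)} {M N : Op q L} (hM : ActsOn X M) (hN : ActsOn X N) :
    ActsOn X (M + N) := by
  obtain ⟨m, hm⟩ := hM
  obtain ⟨n, hn⟩ := hN
  refine ⟨m + n, fun σ τ => ?_⟩
  rw [Matrix.add_apply, hm, hn]
  split <;> simp

theorem ActsOn.smul {X : Finset (Site L)} {M : Op q L} (c : ℂ) (hM : ActsOn X M) :
    ActsOn X (c • M) := by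
  obtain ⟨m, hm⟩ := hM
  refine ⟨c • m, fun σ τ => ?_⟩
  rw [Matrix.smul_apply, hm]
  split <;> simp

theorem ActsOn.sum {X : Finset (Site L)} {ι : Type*} (s : Finset ι) (f : ι → Op q L)
    (h : ∀ i ∈ s, ActsOn X (f i)) : ActsOn X (∑ i ∈ s, f i) :=
  Finset.sum_induction f (ActsOn X) (fun _ _ => ActsOn.add) (actsOn_zero X) h

theorem ActsOn.mul {X : Finset (Site L)} {M N : Op q L} (hM : ActsOn X M) (hN : ActsOn X N) :
    ActsOn X (M * N) := by
  classical
  obtain ⟨m, hm⟩ := hM
  obtain ⟨n, hn⟩ := hN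
  refine ⟨m * n, fun σ τ => ?_⟩
  let e : ({x // x ∈ X} → Fin q) → Conf q L := fun a x => if hx : x ∈ X then a ⟨x, hx⟩ else σ x
  have he1 : ∀ a x, x ∉ X → e a x = σ x := fun a x hx => by simp [e, hx]
  have he2 : ∀ a, (fun x : {x // x ∈ X} => e a x.1) = a := fun a => by
    funext x; simp [e, x.2]
  rw [Matrix.mul_apply]
  have hinj : Function.Injective e := fun a a' h => by rw [← he2 a, ← he2 a', h]
  have hz : ∀ ρ ∈ (Finset.univ : Finset (Conf q L)), ρ ∉ Finset.univ.image e →
      M σ ρ * N ρ τ = 0 := by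
    intro ρ _ hρ
    rw [hm, if_neg, zero_mul]
    intro hall
    apply hρ
    refine Finset.mem_image.2 ⟨fun x => ρ x.1, Finset.mem_univ _, ?_⟩
    funext x
    by_cases hx : x ∈ X
    · simp [e, hx]
    · simp [e, hx, hall x hx]
  rw [← Finset.sum_subset (Finset.subset_univ _) hz, Finset.sum_image hinj.injOn]
  by_cases h : ∀ x, x ∉ X → σ x = τ x
  · rw [if_pos h, Matrix.mul_apply]
    refine Finset.sum_congr rfl fun a _ => ?_
    rw [hm, if_pos (fun x hx => (he1 a x hx).symm), hn,
      if_pos (fun x hx => (he1 a x hx).trans (h x hx)), he2 a]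
  · rw [if_neg h]
    refine Finset.sum_eq_zero fun a _ => ?_
    rw [hn, if_neg, mul_zero]
    intro hall
    exact h fun x hx => (he1 a x hx).symm.trans (hall x hx)

theorem ActsOn.aeval {X : Finset (Site L)} {M : Op q L} (hM : ActsOn X M) (p : Polynomial ℂ) :
    ActsOn X (Polynomial.aeval M p) := by
  induction p using Polynomial.induction_on' with
  | add p r hp hr => rw [map_add]; exact hp.add hr
  | monomial k c =>
    rw [Polynomial.aeval_monomial, Algebra.algebraMap_eq_smul_one, smul_mul_assoc, one_mul]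
    refine ActsOn.smul c ?_
    induction k with
    | zero => simpa using actsOn_one X
    | succ k ih => rw [pow_succ]; exact ih.mul hM

theorem ActsOn.mono {X Y : Finset (Site L)} (hXY : X ⊆ Y) {M : Op q L} (hM : ActsOn X M) :
    ActsOn Y M := by
  classical
  obtain ⟨m, hm⟩ := hM
  refine ⟨Matrix.of fun a b => if ∀ x : {x // x ∈ Y}, x.1 ∉ X → a x = b x then
    m (fun x => a ⟨x.1, hXY x.2⟩) (fun x => b ⟨x.1, hXY x.2⟩) else 0, fun σ τ => ?_⟩
  rw [hm]
  simp only [of_apply]
  by_cases h : ∀ x, x ∉ X → σ x = τ x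
  · have h1 : ∀ x, x ∉ Y → σ x = τ x := fun x hx => h x fun h' => hx (hXY h')
    have h2 : ∀ x : {x // x ∈ Y}, x.1 ∉ X → σ x.1 = τ x.1 := fun x hx => h x.1 hx
    rw [if_pos h, if_pos h1]
    exact (if_pos h2).symm
  · rw [if_neg h]
    by_cases h1 : ∀ x, x ∉ Y → σ x = τ x
    · rw [if_pos h1]
      refine (if_neg ?_).symm
      intro h2
      apply h
      intro x hx
      by_cases hy : x ∈ Y
      · exact h2 ⟨x, hy⟩ hx
      · exact h1 x hy
    · rw [if_neg h1]

section Spectral

variable {n : Type*} [Fintype n] [DecidableEq n]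

theorem aeval_diagonal (d : n → ℂ) (p : Polynomial ℂ) :
    Polynomial.aeval (Matrix.diagonal d) p = Matrix.diagonal fun i => p.eval (d i) := by
  have := Polynomial.aeval_algHom_apply (Matrix.diagonalAlgHom ℂ (n := n) (α := ℂ)) d p
  simp only [Matrix.diagonalAlgHom_apply] at this
  rw [this]
  congr 1
  funext i
  simp

theorem aeval_eq_zero_of_hermitian (M : Matrix n n ℂ) (hM : M.IsHermitian) (p : Polynomial ℂ)
    (hp : ∀ i, p.eval (hM.eigenvalues i : ℂ) = 0) : Polynomial.aeval M p = 0 := by
  conv_lhs => rw [hM.spectral_theorem]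
  rw [Polynomial.aeval_algHom_apply, aeval_diagonal]
  have : (fun i => p.eval ((RCLike.ofReal ∘ hM.eigenvalues) i : ℂ)) = fun _ => (0 : ℂ) :=
    funext hp
  rw [this, Matrix.diagonal_zero, map_zero]

theorem aeval_mulVec_eigen (M : Matrix n n ℂ) (v : n → ℂ) (a : ℂ) (hv : M *ᵥ v = a • v)
    (p : Polynomial ℂ) : (Polynomial.aeval M p) *ᵥ v = p.eval a • v := by
  induction p using Polynomial.induction_on' with
  | add p r hp hr => rw [map_add, Matrix.add_mulVec, hp, hr, Polynomial.eval_add, add_smul]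
  | monomial k c =>
    rw [Polynomial.aeval_monomial, Algebra.algebraMap_eq_smul_one, smul_mul_assoc, one_mul,
      Matrix.smul_mulVec, Polynomial.eval_monomial, mul_smul]
    congr 1
    induction k with
    | zero => simp
    | succ k ih => rw [pow_succ, ← Matrix.mulVec_mulVec, hv, Matrix.mulVec_smul, ih, smul_smul,
        pow_succ, mul_comm]

/-- A polynomial in a Hermitian matrix that projects onto the eigenspace of a given
eigenvalue. -/
theorem exists_eigenprojection (M : Matrix n n ℂ) (hM : M.IsHermitian) (v : n → ℂ) (a : ℂ)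
    (hv : M *ᵥ v = a • v) :
    ∃ p : Polynomial ℂ, M * Polynomial.aeval M p = a • Polynomial.aeval M p ∧
      Polynomial.aeval M p *ᵥ v = v := by
  classical
  set s : Finset ℂ := insert a (Finset.univ.image fun i => (hM.eigenvalues i : ℂ)) with hs
  have ha : a ∈ s := Finset.mem_insert_self _ _
  set p := Lagrange.basis s id a with hp
  refine ⟨p, ?_, ?_⟩
  · have h0 := aeval_eq_zero_of_hermitian M hM ((Polynomial.X - Polynomial.C a) * p) fun i => by
      by_cases h : (hM.eigenvalues i : ℂ) = a
      · simp [h]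
      · have := Lagrange.eval_basis_of_ne (v := id) (s := s) (i := a)
          (j := (hM.eigenvalues i : ℂ)) (Ne.symm h)
          (Finset.mem_insert_of_mem (Finset.mem_image_of_mem _ (Finset.mem_univ i)))
        simp [hp, id] at this ⊢
        exact Or.inr this
    rw [map_mul, map_sub, Polynomial.aeval_X, Polynomial.aeval_C, Algebra.algebraMap_eq_smul_one,
      sub_mul, smul_mul_assoc, one_mul, sub_eq_zero] at h0
    exact h0
  · rw [aeval_mulVec_eigen M v a hv p]
    have : p.eval a = 1 := by
      simpa [hp] using Lagrange.eval_basis_self (v := id) (fun x _ y _ h => h) ha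
    rw [this, one_smul]

end Spectral

end Vale.Agent.P356
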