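import Vale.Agent.P356.SchmidtRank
import Vale.Agent.P356.Operators
import Vale.Agent.P356.Lattice

/-!
The area law when the two bulk energies are conserved.
-/

namespace Vale.Agent.P356

open Matrix ComplexOrder

variable {q L : ℕ}

theorem ground_unique (H : Op q L) (E : ℝ) (Ω : Conf q L → ℂ) (Δ : ℝ) (hΔ : 0 < Δ)
    (hnorm : ∑ σ, Complex.normSq (Ω σ) = 1) (hE : H *ᵥ Ω = (E : ℂ) • Ω)
    (hgap : ∀ v : Conf q L → ℂ, star Ω ⬝ᵥ v = 0 →
      Δ * ∑ σ, Complex.normSq (v σ) ≤
        (star v ⬝ᵥ (H *ᵥ v)).re - E * ∑ σ, Complex.normSq (v σ))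
    (v : Conf q L → ℂ) (hv : H *ᵥ v = (E : ℂ) • v) : ∃ c : ℂ, v = c • Ω := by
  set c := star Ω ⬝ᵥ v with hc
  refine ⟨c, ?_⟩
  set w := v - c • Ω with hw
  have hΩ : star Ω ⬝ᵥ Ω = 1 := by
    have : star Ω ⬝ᵥ Ω = ((∑ σ, Complex.normSq (Ω σ) : ℝ) : ℂ) := by
      simp [dotProduct, Complex.normSq_eq_conj_mul_self]
    rw [this, hnorm]; simp
  have hworth : star Ω ⬝ᵥ w = 0 := by
    rw [hw, dotProduct_sub, dotProduct_smul, hΩ, ← hc]; simp
  have hHw : H *ᵥ w = (E : ℂ) • w := by
    rw [hw, mulVec_sub, mulVec_smul, hE, hv, smul_sub, smul_comm]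
  have hre : (star w ⬝ᵥ (H *ᵥ w)).re = E * ∑ σ, Complex.normSq (w σ) := by
    have : star w ⬝ᵥ w = ((∑ σ, Complex.normSq (w σ) : ℝ) : ℂ) := by
      simp [dotProduct, Complex.normSq_eq_conj_mul_self]
    rw [hHw, dotProduct_smul, this, smul_eq_mul, ← Complex.ofReal_mul, Complex.ofReal_re]
  have h0 := hgap w hworth
  rw [hre, sub_self] at h0
  have hz : ∑ σ, Complex.normSq (w σ) = 0 :=
    le_antisymm (nonpos_of_mul_nonpos_right h0 hΔ)
      (Finset.sum_nonneg fun σ _ => Complex.normSq_nonneg _)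
  have : w = 0 := by
    funext σ
    exact Complex.normSq_eq_zero.1
      ((Finset.sum_eq_zero_iff_of_nonneg fun σ _ => Complex.normSq_nonneg _).1 hz σ
        (Finset.mem_univ σ))
  exact sub_eq_zero.1 this

theorem commute_of_actsOn_compl (A : Finset (Site L)) (M N : Op q L) (hM : ActsOn A M)
    (hN : ActsOn Aᶜ N) : M * N = N * M := by
  classical
  obtain ⟨m, hm⟩ := hM
  obtain ⟨n, hn⟩ := hN
  ext σ τ
  rw [Matrix.mul_apply, Matrix.mul_apply]
  rw [Finset.sum_eq_single (glue A (fun x => τ x.1) (fun x => σ x.1)),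
    Finset.sum_eq_single (glue A (fun x => σ x.1) (fun x => τ x.1))]
  · rw [hm, hn, hm, hn, if_pos, if_pos, if_pos, if_pos, mul_comm]
    · congr 2 <;> funext x <;> first
        | (simp [glue, x.2]; done)
        | simp [glue, Finset.mem_compl.1 x.2]
    · intro x hx; simp [glue, hx]
    · intro x hx
      have : x ∈ A := by simpa using hx
      simp [glue, this]
    · intro x hx
      have : x ∈ A := by simpa using hx
      simp [glue, this]
    · intro x hx; simp [glue, hx]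
  · intro ρ _ hρ
    rw [hm, hn]
    split_ifs with h1 h2
    · refine absurd ?_ hρ
      funext x
      by_cases hx : x ∈ A
      · simp [glue, hx, ← h1 x (by simpa using hx)]
      · simp [glue, hx, h2 x hx]
    all_goals simp
  · simp
  · intro ρ _ hρ
    rw [hm, hn]
    split_ifs with h1 h2
    · refine absurd ?_ hρ
      funext x
      by_cases hx : x ∈ A
      · simp [glue, hx, h2 x (by simpa using hx)]
      · simp [glue, hx, ← h1 x hx]
    all_goals simp
  · simp

theorem commute_aeval {M N : Op q L} (h : Commute M N) (p : Polynomial ℂ) :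
    Commute (Polynomial.aeval M p) N := by
  induction p using Polynomial.induction_on' with
  | add p r hp hr => rw [map_add]; exact hp.add_left hr
  | monomial k c =>
    rw [Polynomial.aeval_monomial, Algebra.algebraMap_eq_smul_one, smul_mul_assoc, one_mul]
    exact (h.pow_left k).smul_left c

theorem crossing_actsOn (R : ℕ) (h : Finset (Site L) → Op q L) (A : Finset (Site L))
    (hact : ∀ X, ActsOn X (h X))
    (hrange : ∀ X, h X ≠ 0 → ∀ x ∈ X, ∀ y ∈ X, dist1 x y ≤ R) (hempty : h ∅ = 0) :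
    ActsOn (Finset.univ.filter fun x => ∃ y, dist1 x y ≤ R ∧ ¬ (x ∈ A ↔ y ∈ A))
      (hamOn h Finset.univ - hamOn h A - hamOn h Aᶜ) := by
  classical
  set H := hamOn h Finset.univ with hH
  set HA := hamOn h A with hHA
  set HB := hamOn h Aᶜ with hHB
  set K := H - HA - HB with hK
  set Y : Finset (Site L) :=
    Finset.univ.filter fun x => ∃ y, dist1 x y ≤ R ∧ ¬ (x ∈ A ↔ y ∈ A) with hY
  have hKdef : K = ∑ X ∈ (Finset.univ : Finset (Site L)).powerset.filter
      (fun X => ¬ X ⊆ A ∧ ¬ X ⊆ Aᶜ), h X := by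
    rw [hK, hH, hHA, hHB]
    unfold hamOn
    rw [← Finset.sum_filter_add_sum_filter_not (Finset.univ : Finset (Site L)).powerset
      (fun X => X ⊆ A ∨ X ⊆ Aᶜ) h]
    have e1 : ∑ X ∈ (Finset.univ : Finset (Site L)).powerset.filter
        (fun X => X ⊆ A ∨ X ⊆ Aᶜ), h X = ∑ X ∈ A.powerset, h X + ∑ X ∈ Aᶜ.powerset, h X := by
      rw [← Finset.sum_union_inter]
      have i1 : A.powerset ∩ Aᶜ.powerset = {∅} := by
        ext X
        simp only [Finset.mem_inter, Finset.mem_powerset, Finset.mem_singleton]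
        constructor
        · rintro ⟨a, b⟩
          rw [Finset.eq_empty_iff_forall_notMem]
          exact fun x hx => Finset.mem_compl.1 (b hx) (a hx)
        · rintro rfl; simp
      have i2 : A.powerset ∪ Aᶜ.powerset = (Finset.univ : Finset (Site L)).powerset.filter
          (fun X => X ⊆ A ∨ X ⊆ Aᶜ) := by
        ext X; simp
      rw [i1, i2, Finset.sum_singleton, hempty, add_zero]
    have e2 : (Finset.univ : Finset (Site L)).powerset.filter (fun X => ¬ (X ⊆ A ∨ X ⊆ Aᶜ)) =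
        (Finset.univ : Finset (Site L)).powerset.filter (fun X => ¬ X ⊆ A ∧ ¬ X ⊆ Aᶜ) := by
      simp only [not_or]
    rw [e1, e2]
    abel
  have hactK : ActsOn Y K := by
    rw [hKdef]
    refine ActsOn.sum _ _ fun X hX => ?_
    by_cases hX0 : h X = 0
    · rw [hX0]; exact actsOn_zero Y
    refine (hact X).mono fun x hx => ?_
    obtain ⟨-, h1, h2⟩ := Finset.mem_filter.1 hX
    obtain ⟨u, hu, hu'⟩ := Finset.not_subset.1 h1
    obtain ⟨w, hw, hw'⟩ := Finset.not_subset.1 h2
    rw [Finset.mem_compl, not_not] at hw'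
    rw [hY, Finset.mem_filter]
    refine ⟨Finset.mem_univ x, ?_⟩
    by_cases hxA : x ∈ A
    · exact ⟨u, hrange X hX0 x hx u hu, fun e => hu' (e.1 hxA)⟩
    · exact ⟨w, hrange X hX0 x hx w hw, fun e => hxA (e.2 hw')⟩
  exact hactK

theorem rank_ground_le (R : ℕ) (h : Finset (Site L) → Op q L) (E : ℝ) (Ω : Conf q L → ℂ)
    (Δ : ℝ) (A : Finset (Site L))
    (hherm : ∀ X, (h X).IsHermitian) (hact : ∀ X, ActsOn X (h X))
    (hrange : ∀ X, h X ≠ 0 → ∀ x ∈ X, ∀ y ∈ X, dist1 x y ≤ R)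
    (hempty : h ∅ = 0)
    (hΔ : 0 < Δ) (hnorm : ∑ σ, Complex.normSq (Ω σ) = 1)
    (hE : hamOn h Finset.univ *ᵥ Ω = (E : ℂ) • Ω)
    (hgap : ∀ v : Conf q L → ℂ, star Ω ⬝ᵥ v = 0 →
      Δ * ∑ σ, Complex.normSq (v σ) ≤
        (star v ⬝ᵥ (hamOn h Finset.univ *ᵥ v)).re - E * ∑ σ, Complex.normSq (v σ))
    (hA : Commute (hamOn h Finset.univ) (hamOn h A))
    (hB : Commute (hamOn h Finset.univ) (hamOn h Aᶜ)) :
    (reshape A Ω).rank ≤ q ^ (layer R A).card := by
  classical
  set H := hamOn h Finset.univ with hH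
  set HA := hamOn h A with hHA
  set HB := hamOn h Aᶜ with hHB
  set K := H - HA - HB with hK
  have hherm' : ∀ S, (hamOn h S).IsHermitian := fun S =>
    Finset.sum_induction h (fun M : Op q L => M.IsHermitian) (fun _ _ => IsHermitian.add)
      isHermitian_zero fun X _ => hherm X
  have hactA : ActsOn A HA :=
    ActsOn.sum _ _ fun X hX => (hact X).mono (Finset.mem_powerset.1 hX)
  have hactB : ActsOn Aᶜ HB :=
    ActsOn.sum _ _ fun X hX => (hact X).mono (Finset.mem_powerset.1 hX)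
  set Y : Finset (Site L) :=
    Finset.univ.filter fun x => ∃ y, dist1 x y ≤ R ∧ ¬ (x ∈ A ↔ y ∈ A) with hY
  have hactK : ActsOn Y K := crossing_actsOn R h A hact hrange hempty
  have hYA : A ∩ Y = layer R A := by
    ext x
    simp only [hY, layer, Finset.mem_inter, Finset.mem_filter, Finset.mem_univ, true_and]
    constructor
    · rintro ⟨hx, y, hd, hn⟩
      exact ⟨hx, y, fun hy => hn ⟨fun _ => hy, fun _ => hx⟩, hd⟩
    · rintro ⟨hx, y, hy, hd⟩
      exact ⟨hx, y, hd, fun e => hy (e.1 hx)⟩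
  -- commutation
  have hAB : Commute HA HB := commute_of_actsOn_compl A HA HB hactA hactB
  have hKA : Commute HA K :=
    (hA.symm.sub_right (Commute.refl HA)).sub_right hAB
  have hKB : Commute HB K :=
    (hB.symm.sub_right hAB.symm).sub_right (Commute.refl HB)
  -- joint eigenvalues
  have heig : ∀ M : Op q L, Commute H M → ∃ a : ℂ, M *ᵥ Ω = a • Ω := by
    intro M hM
    refine ground_unique H E Ω Δ hΔ hnorm hE hgap _ ?_
    rw [mulVec_mulVec, hM.eq, ← mulVec_mulVec, hE, mulVec_smul]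
  have hHK : Commute H K :=
    ((Commute.refl H).sub_right hA).sub_right hB
  obtain ⟨a, ha⟩ := heig HA hA
  obtain ⟨b, hb⟩ := heig HB hB
  obtain ⟨k, hk⟩ := heig K hHK
  obtain ⟨pa, hpa, hpa'⟩ := exists_eigenprojection HA (hherm' A) Ω a ha
  obtain ⟨pb, hpb, hpb'⟩ := exists_eigenprojection HB (hherm' Aᶜ) Ω b hb
  obtain ⟨pk, hpk, hpk'⟩ :=
    exists_eigenprojection K (((hherm' _).sub (hherm' _)).sub (hherm' _)) Ω k hk
  set Pa := Polynomial.aeval HA pa with hPa
  set Pb := Polynomial.aeval HB pb with hPb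
  set Pk := Polynomial.aeval K pk with hPk
  set P := Pa * (Pb * Pk) with hP
  have hPΩ : P *ᵥ Ω = Ω := by
    rw [hP, ← mulVec_mulVec, ← mulVec_mulVec, hpk', hpb', hpa']
  have cPa : ∀ N : Op q L, Commute N HA → Commute N Pa := fun N hN =>
    (commute_aeval hN.symm pa).symm
  have cPb : ∀ N : Op q L, Commute N HB → Commute N Pb := fun N hN =>
    (commute_aeval hN.symm pb).symm
  have hHP : H * P = (a + b + k) • P := by
    have e : H = HA + HB + K := by rw [hK]; abel
    have eA : HA * P = a • P := by rw [hP, ← mul_assoc, hpa, smul_mul_assoc]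
    have eB : HB * P = b • P := by
      rw [hP, ← mul_assoc, (cPa HB hAB.symm).eq, mul_assoc, ← mul_assoc HB, hpb,
        smul_mul_assoc, mul_smul_comm]
    have eK : K * P = k • P := by
      rw [hP, ← mul_assoc, (cPa K hKA.symm).eq, mul_assoc, ← mul_assoc K, (cPb K hKB.symm).eq,
        mul_assoc, hpk, mul_smul_comm, mul_smul_comm]
    rw [e, add_mul, add_mul, eA, eB, eK, add_smul, add_smul]
  have hΩ0 : Ω ≠ 0 := by
    rintro rfl
    simp at hnorm
  have habk : (a + b + k) = (E : ℂ) := by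
    have h1 : H *ᵥ Ω = (a + b + k) • Ω := by
      conv_lhs => rw [← hPΩ, mulVec_mulVec, hHP, smul_mulVec, hPΩ]
    rw [hE] at h1
    exact (smul_left_injective ℂ hΩ0 h1).symm
  -- a basis vector not killed by `P`
  obtain ⟨σ, hσ⟩ : ∃ σ, P *ᵥ Pi.single σ 1 ≠ 0 := by
    by_contra hn
    push Not at hn
    apply hΩ0
    have : P *ᵥ Ω = 0 := by
      have e : Ω = ∑ σ, Ω σ • (Pi.single σ (1 : ℂ) : Conf q L → ℂ) := by
        funext τ
        simp [Finset.sum_apply, Pi.single_apply]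
      rw [e, mulVec_sum]
      refine Finset.sum_eq_zero fun σ _ => ?_
      rw [mulVec_smul, hn σ, smul_zero]
    rw [← hPΩ, this]
  obtain ⟨c, hc⟩ := ground_unique H E Ω Δ hΔ hnorm hE hgap (P *ᵥ Pi.single σ 1)
    (by rw [mulVec_mulVec, hHP, smul_mulVec, habk])
  have hc0 : c ≠ 0 := by
    rintro rfl
    exact hσ (by simpa using hc)
  have hΩc : reshape A Ω = c⁻¹ • reshape A (P *ᵥ Pi.single σ 1) := by
    rw [hc, reshape_smul, smul_smul, inv_mul_cancel₀ hc0, one_smul]
  have hle : (reshape A Ω).rank ≤ (reshape A (P *ᵥ Pi.single σ 1)).rank := by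
    have : c⁻¹ • reshape A (P *ᵥ Pi.single σ 1) =
        (c⁻¹ • (1 : Matrix ({x // x ∈ A} → Fin q) ({x // x ∈ A} → Fin q) ℂ)) *
          reshape A (P *ᵥ Pi.single σ 1) := by
      rw [Matrix.smul_mul, Matrix.one_mul]
    rw [hΩc, this]
    exact rank_mul_le_right _ _
  refine hle.trans ?_
  rw [hP, ← mulVec_mulVec, ← mulVec_mulVec]
  refine (rank_reshape_left A Pa (hactA.aeval pa) _).trans ?_
  refine (rank_reshape_right A Pb (hactB.aeval pb) _).trans ?_
  rw [← hYA]
  exact rank_reshape_single A Y Pk (hactK.aeval pk) σ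

end Vale.Agent.P356
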