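import Vale.Agent.P356.AreaLaw

/-!
Schmidt rank of the ground state when the energy inside the region alone is conserved.
-/

namespace Vale.Agent.P356

open Matrix

variable {q L : ℕ}

/-- If `H` commutes with the sum of its terms inside `A`, the Schmidt rank of a gapped ground
state across `A` is at most the dimension of the inner boundary layer. -/
theorem rank_ground_le_one_sided (R : ℕ) (h : Finset (Site L) → Op q L) (E : ℝ)
    (Ω : Conf q L → ℂ) (Δ : ℝ) (A : Finset (Site L))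
    (hherm : ∀ X, (h X).IsHermitian) (hact : ∀ X, ActsOn X (h X))
    (hrange : ∀ X, h X ≠ 0 → ∀ x ∈ X, ∀ y ∈ X, dist1 x y ≤ R)
    (hempty : h ∅ = 0)
    (hΔ : 0 < Δ) (hnorm : ∑ σ, Complex.normSq (Ω σ) = 1)
    (hE : hamOn h Finset.univ *ᵥ Ω = (E : ℂ) • Ω)
    (hgap : ∀ v : Conf q L → ℂ, star Ω ⬝ᵥ v = 0 →
      Δ * ∑ σ, Complex.normSq (v σ) ≤
        (star v ⬝ᵥ (hamOn h Finset.univ *ᵥ v)).re - E * ∑ σ, Complex.normSq (v σ))
    (hA : Commute (hamOn h Finset.univ) (hamOn h A)) :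
    (reshape A Ω).rank ≤ q ^ (layer R A).card := by
  classical
  set H := hamOn h Finset.univ with hH
  set HA := hamOn h A with hHA
  set G := H - HA with hG
  have hherm' : ∀ S, (hamOn h S).IsHermitian := fun S =>
    Finset.sum_induction h (fun M : Op q L => M.IsHermitian) (fun _ _ => IsHermitian.add)
      isHermitian_zero fun X _ => hherm X
  have hactA : ActsOn A HA :=
    ActsOn.sum _ _ fun X hX => (hact X).mono (Finset.mem_powerset.1 hX)
  set Y : Finset (Site L) :=
    Finset.univ.filter fun x => ∃ y, dist1 x y ≤ R ∧ ¬ (x ∈ A ↔ y ∈ A) with hY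
  have hactG : ActsOn (Y ∪ Aᶜ) G := by
    have e : G = (H - HA - hamOn h Aᶜ) + hamOn h Aᶜ := by rw [hG]; abel
    rw [e]
    refine ((crossing_actsOn R h A hact hrange hempty).mono Finset.subset_union_left).add ?_
    exact ActsOn.sum _ _ fun X hX =>
      (hact X).mono ((Finset.mem_powerset.1 hX).trans Finset.subset_union_right)
  have hYA : A ∩ (Y ∪ Aᶜ) = layer R A := by
    ext x
    simp only [hY, layer, Finset.mem_inter, Finset.mem_union, Finset.mem_filter, Finset.mem_univ,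
      true_and, Finset.mem_compl]
    constructor
    · rintro ⟨hx, ⟨y, hd, hn⟩ | hx'⟩
      · exact ⟨hx, y, fun hy => hn ⟨fun _ => hy, fun _ => hx⟩, hd⟩
      · exact absurd hx hx'
    · rintro ⟨hx, y, hy, hd⟩
      exact ⟨hx, Or.inl ⟨y, hd, fun e => hy (e.1 hx)⟩⟩
  have hGA : Commute HA G := hA.symm.sub_right (Commute.refl HA)
  have hHG : Commute H G := (Commute.refl H).sub_right hA
  have heig : ∀ M : Op q L, Commute H M → ∃ a : ℂ, M *ᵥ Ω = a • Ω := by
    intro M hM
    refine ground_unique H E Ω Δ hΔ hnorm hE hgap _ ?_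
    rw [mulVec_mulVec, hM.eq, ← mulVec_mulVec, hE, mulVec_smul]
  obtain ⟨a, ha⟩ := heig HA hA
  obtain ⟨k, hk⟩ := heig G hHG
  obtain ⟨pa, hpa, hpa'⟩ := exists_eigenprojection HA (hherm' A) Ω a ha
  obtain ⟨pk, hpk, hpk'⟩ :=
    exists_eigenprojection G ((hherm' _).sub (hherm' _)) Ω k hk
  set Pa := Polynomial.aeval HA pa with hPa
  set Pk := Polynomial.aeval G pk with hPk
  set P := Pa * Pk with hP
  have hPΩ : P *ᵥ Ω = Ω := by
    rw [hP, ← mulVec_mulVec, hpk', hpa']
  have hHP : H * P = (a + k) • P := by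
    have e : H = HA + G := by rw [hG]; abel
    have eA : HA * P = a • P := by rw [hP, ← mul_assoc, hpa, smul_mul_assoc]
    have cG : Commute G Pa := (commute_aeval hGA pa).symm
    have eK : G * P = k • P := by
      rw [hP, ← mul_assoc, cG.eq, mul_assoc, hpk, mul_smul_comm]
    rw [e, add_mul, eA, eK, add_smul]
  have hΩ0 : Ω ≠ 0 := by
    rintro rfl
    simp at hnorm
  have habk : (a + k) = (E : ℂ) := by
    have h1 : H *ᵥ Ω = (a + k) • Ω := by
      conv_lhs => rw [← hPΩ, mulVec_mulVec, hHP, smul_mulVec, hPΩ]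
    rw [hE] at h1
    exact (smul_left_injective ℂ hΩ0 h1).symm
  obtain ⟨σ, hσ⟩ : ∃ σ, P *ᵥ Pi.single σ 1 ≠ 0 := by
    by_contra hn
    push Not at hn
    apply hΩ0
    have : P *ᵥ Ω = 0 := by
      have e : Ω = ∑ σ, Ω σ • (Pi.single σ (1 : ℂ) : Conf q L → ℂ) := by
        funext τ
        simp [Finset.sum_apply, Pi.single_apply]
      rw [e, mulVec_sum]
      refine Finset.sum_eq_zero fun σ _ => ?_
      rw [mulVec_smul, hn σ, smul_zero]
    rw [← hPΩ, this]
  obtain ⟨c, hc⟩ := ground_unique H E Ω Δ hΔ hnorm hE hgap (P *ᵥ Pi.single σ 1)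
    (by rw [mulVec_mulVec, hHP, smul_mulVec, habk])
  have hc0 : c ≠ 0 := by
    rintro rfl
    exact hσ (by simpa using hc)
  have hΩc : reshape A Ω = c⁻¹ • reshape A (P *ᵥ Pi.single σ 1) := by
    rw [hc, reshape_smul, smul_smul, inv_mul_cancel₀ hc0, one_smul]
  have hle : (reshape A Ω).rank ≤ (reshape A (P *ᵥ Pi.single σ 1)).rank := by
    have : c⁻¹ • reshape A (P *ᵥ Pi.single σ 1) =
        (c⁻¹ • (1 : Matrix ({x // x ∈ A} → Fin q) ({x // x ∈ A} → Fin q) ℂ)) *
          reshape A (P *ᵥ Pi.single σ 1) := by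
      rw [Matrix.smul_mul, Matrix.one_mul]
    rw [hΩc, this]
    exact rank_mul_le_right _ _
  refine hle.trans ?_
  rw [hP, ← mulVec_mulVec]
  refine (rank_reshape_left A Pa (hactA.aeval pa) _).trans ?_
  rw [← hYA]
  exact rank_reshape_single A (Y ∪ Aᶜ) Pk (hactG.aeval pk) σ

end Vale.Agent.P356
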