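import Mathlib

/-!
Spectral entropy of Hermitian matrices, products over finitely many tensor factors, and the
diagonal form of a gapped ground state.
-/

namespace Vale.Agent.P356

open Matrix Finset

variable {n n' : Type*} [Fintype n] [DecidableEq n] [Fintype n'] [DecidableEq n']

/-- The entropy read from the roots of the characteristic polynomial. -/
noncomputable def specEntropy (M : Matrix n n ℂ) : ℝ :=
  (M.charpoly.roots.map fun z => Real.negMulLog z.re).sum

theorem sum_negMulLog_eigenvalues {M : Matrix n n ℂ} (hM : M.IsHermitian) :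
    ∑ i, Real.negMulLog (hM.eigenvalues i) = specEntropy M := by
  rw [specEntropy, hM.roots_charpoly_eq_eigenvalues, Multiset.map_map]
  rfl

theorem specEntropy_conj_diagonal {M : Matrix n n ℂ} (U : Matrix n n ℂ) (hU : Uᴴ * U = 1)
    (d : n → ℝ) (h : M = U * diagonal (fun i => (d i : ℂ)) * Uᴴ) :
    specEntropy M = ∑ i, Real.negMulLog (d i) := by
  have hc : M.charpoly = ∏ i, (Polynomial.X - Polynomial.C (d i : ℂ)) := by
    rw [h, charpoly_mul_comm, ← Matrix.mul_assoc, hU, Matrix.one_mul, charpoly_diagonal]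
  have hr : M.charpoly.roots = Finset.univ.val.map fun i => (d i : ℂ) := by
    rw [hc, ← Polynomial.roots_multiset_prod_X_sub_C (Finset.univ.val.map fun i => (d i : ℂ)),
      Multiset.map_map]
    rfl
  rw [specEntropy, hr, Multiset.map_map]
  rfl

/-- Zero eigenvalues do not matter. -/
theorem specEntropy_mul_comm (A : Matrix n n' ℂ) (B : Matrix n' n ℂ) :
    specEntropy (A * B) = specEntropy (B * A) := by
  have h := congrArg (fun p : Polynomial ℂ => (p.roots.map fun z : ℂ => Real.negMulLog z.re).sum)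
    (charpoly_mul_comm' A B)
  have hne : ∀ (k : ℕ) (M : Polynomial ℂ), M ≠ 0 →
      ((Polynomial.X ^ k * M).roots.map fun z : ℂ => Real.negMulLog z.re).sum
        = (M.roots.map fun z : ℂ => Real.negMulLog z.re).sum := by
    intro k M hM
    rw [Polynomial.roots_mul (mul_ne_zero (pow_ne_zero _ Polynomial.X_ne_zero) hM),
      Polynomial.roots_X_pow, Multiset.map_add, Multiset.sum_add]
    simp [Multiset.map_nsmul, Multiset.sum_nsmul]
  simp only [hne _ _ (charpoly_monic _).ne_zero] at h
  exact h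

theorem specEntropy_isometry (V : Matrix n' n ℂ) (hV : Vᴴ * V = 1) (M : Matrix n n ℂ) :
    specEntropy (V * M * Vᴴ) = specEntropy M := by
  rw [Matrix.mul_assoc, specEntropy_mul_comm, Matrix.mul_assoc, hV, Matrix.mul_one]

theorem negMulLog_prod {ι : Type*} [DecidableEq ι] (s : Finset ι) (p : ι → ℝ) :
    Real.negMulLog (∏ i ∈ s, p i) = ∑ t ∈ s, Real.negMulLog (p t) * ∏ i ∈ s.erase t, p i := by
  induction s using Finset.induction_on with
  | empty => simp
  | insert a s ha ih =>
    rw [prod_insert ha, Real.negMulLog_mul, ih, sum_insert ha, erase_insert ha, mul_comm (∏ i ∈ s, p i),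
      mul_sum]
    congr 1
    refine sum_congr rfl fun t ht => ?_
    rw [erase_insert_of_ne (fun h => ha (by rwa [h])), prod_insert (fun h => ha (mem_of_mem_erase h))]
    ring

section Kron

variable {T : Type*} [Fintype T] [DecidableEq T] {a b c : Type*} [Fintype a] [DecidableEq a]
  [Fintype b] [DecidableEq b] [Fintype c] [DecidableEq c]

/-- The tensor product of a family of matrices. -/
def kron (M : T → Matrix a b ℂ) : Matrix (T → a) (T → b) ℂ :=
  Matrix.of fun f g => ∏ t, M t (f t) (g t)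

omit [Fintype a] [DecidableEq a] [DecidableEq b] [Fintype c] [DecidableEq c] in
theorem kron_mul (M : T → Matrix a b ℂ) (N : T → Matrix b c ℂ) :
    kron M * kron N = kron fun t => M t * N t := by
  ext f g
  simp only [kron, mul_apply, of_apply, ← prod_mul_distrib, Fintype.prod_sum]

omit [Fintype a] [DecidableEq a] [Fintype b] [DecidableEq b] [DecidableEq T] in
theorem kron_conjTranspose (M : T → Matrix a b ℂ) :
    (kron M)ᴴ = kron fun t => (M t)ᴴ := by
  ext f g
  simp [kron]

omit [Fintype a] [DecidableEq T] in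
theorem kron_diagonal (d : T → a → ℂ) :
    kron (fun t => diagonal (d t)) = diagonal fun f => ∏ t, d t (f t) := by
  ext f g
  simp only [kron, of_apply]
  by_cases h : f = g
  · subst h; simp
  · obtain ⟨t, ht⟩ := Function.ne_iff.1 h
    rw [diagonal_apply_ne _ h]
    exact prod_eq_zero (mem_univ t) (diagonal_apply_ne _ ht)

omit [Fintype a] in
theorem kron_one : kron (fun _ : T => (1 : Matrix a a ℂ)) = 1 := by
  simp only [← diagonal_one, kron_diagonal, prod_const_one]

/-- The entropy of a product is the sum of the entropies. -/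
theorem specEntropy_kron (M : T → Matrix a a ℂ) (hM : ∀ t, (M t).IsHermitian)
    (htr : ∀ t, ∑ i, (hM t).eigenvalues i = 1) :
    specEntropy (kron M) = ∑ t, specEntropy (M t) := by
  set U : T → Matrix a a ℂ := fun t => ((hM t).eigenvectorUnitary : Matrix a a ℂ) with hUdef
  have hU : ∀ t, (U t)ᴴ * U t = 1 := fun t => Unitary.coe_star_mul_self _
  have hdec : ∀ t, M t = U t * diagonal (fun i => ((hM t).eigenvalues i : ℂ)) * (U t)ᴴ :=
    fun t => (hM t).spectral_theorem
  set p : T → a → ℝ := fun t i => (hM t).eigenvalues i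
  rw [specEntropy_conj_diagonal (kron U)
    (by rw [kron_conjTranspose, kron_mul]; simp only [hU, kron_one])
    (fun f => ∏ t, p t (f t))]
  · simp only [negMulLog_prod]
    rw [sum_comm]
    refine sum_congr rfl fun t _ => ?_
    rw [← sum_negMulLog_eigenvalues (hM t)]
    let g : T → a → ℝ := fun s i => if s = t then Real.negMulLog (p s i) else p s i
    have hterm : ∀ f : T → a, Real.negMulLog (p t (f t)) * ∏ s ∈ univ.erase t, p s (f s)
        = ∏ s, g s (f s) := by
      intro f
      rw [← mul_prod_erase univ _ (mem_univ t)]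
      congr 1
      · simp [g]
      · exact prod_congr rfl fun s hs => by simp [g, ne_of_mem_erase hs]
    simp only [hterm, ← Fintype.prod_sum]
    rw [← mul_prod_erase univ _ (mem_univ t), prod_eq_one (fun s hs => ?_), mul_one]
    · simp [g, p]
    · simpa [g, ne_of_mem_erase hs, p] using htr s
  · rw [kron_conjTranspose]
    conv_lhs => rw [show M = fun t => U t * diagonal (fun i => ((p t i : ℝ) : ℂ)) * (U t)ᴴ from
      funext hdec]
    rw [← kron_mul, ← kron_mul, kron_diagonal]
    simp

end Kron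

/-- The squared norm of a vector. -/
noncomputable def nsq (v : n → ℂ) : ℝ := ∑ i, Complex.normSq (v i)

omit [DecidableEq n] in
theorem nsq_nonneg (v : n → ℂ) : 0 ≤ nsq v := sum_nonneg fun _ _ => Complex.normSq_nonneg _

omit [DecidableEq n] in
theorem dot_self (v : n → ℂ) : star v ⬝ᵥ v = (nsq v : ℂ) := by
  simp [nsq, dotProduct, Complex.normSq_eq_conj_mul_self]

theorem nsq_unitary (U : Matrix n n ℂ) (hU : Uᴴ * U = 1) (v : n → ℂ) :
    nsq (U *ᵥ v) = nsq v := by
  have h : star (U *ᵥ v) ⬝ᵥ (U *ᵥ v) = star v ⬝ᵥ v := by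
    rw [star_mulVec, ← dotProduct_mulVec, mulVec_mulVec, hU, one_mulVec]
  rw [dot_self, dot_self] at h
  exact_mod_cast h

/-- `Ω` is the simple ground state with energy `E` and the gap is at least `Δ`. -/
def Gapped (H : Matrix n n ℂ) (E Δ : ℝ) (Ω : n → ℂ) : Prop :=
  nsq Ω = 1 ∧ H *ᵥ Ω = (E : ℂ) • Ω ∧
    ∀ v : n → ℂ, star Ω ⬝ᵥ v = 0 → Δ * nsq v ≤ (star v ⬝ᵥ (H *ᵥ v)).re - E * nsq v

/-- The diagonal form of a gapped Hamiltonian. -/
theorem Gapped.exists_diag {H : Matrix n n ℂ} {E Δ : ℝ} {Ω : n → ℂ} (hH : H.IsHermitian)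
    (hΔ : 0 < Δ) (hg : Gapped H E Δ Ω) :
    ∃ (U : Matrix n n ℂ) (d : n → ℝ) (i₀ : n) (z : ℂ), Uᴴ * U = 1 ∧
      H = U * diagonal (fun i => (d i : ℂ)) * Uᴴ ∧ d i₀ = E ∧ (∀ i, i ≠ i₀ → E + Δ ≤ d i) ∧
      Ω = z • fun x => U x i₀ := by
  obtain ⟨hn, hev, hgap⟩ := hg
  set U : Matrix n n ℂ := (hH.eigenvectorUnitary : Matrix n n ℂ) with hUdef
  have hU : Uᴴ * U = 1 := Unitary.coe_star_mul_self _
  have hU' : U * Uᴴ = 1 := mul_eq_one_comm.1 hU
  set d := hH.eigenvalues with hd
  have hdec : H = U * diagonal (fun i => (d i : ℂ)) * Uᴴ := hH.spectral_theorem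
  set w := Uᴴ *ᵥ Ω with hw
  have hΩ : Ω = U *ᵥ w := by rw [hw, mulVec_mulVec, hU', one_mulVec]
  have hquad : ∀ u : n → ℂ, (star (U *ᵥ u) ⬝ᵥ (H *ᵥ (U *ᵥ u))).re
      = ∑ i, d i * Complex.normSq (u i) := by
    intro u
    rw [hdec, ← mulVec_mulVec, mulVec_mulVec _ Uᴴ U, hU, one_mulVec, ← mulVec_mulVec, star_mulVec,
      ← dotProduct_mulVec, mulVec_mulVec _ Uᴴ U, hU, one_mulVec]
    simp only [dotProduct, mulVec_diagonal, Complex.re_sum, Pi.star_apply]
    refine sum_congr rfl fun i _ => ?_
    simp [Complex.normSq_apply]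
    ring
  have horth : ∀ u : n → ℂ, star w ⬝ᵥ u = 0 →
      ∑ i, (E + Δ - d i) * Complex.normSq (u i) ≤ 0 := by
    intro u hu
    have h := hgap (U *ᵥ u) (by
      rw [hΩ, star_mulVec, ← dotProduct_mulVec, mulVec_mulVec, hU, one_mulVec]; exact hu)
    rw [hquad, nsq_unitary U hU] at h
    simp only [sub_mul, sum_sub_distrib, ← mul_sum]
    unfold nsq at h
    linarith
  have hweig : ∀ i, (d i : ℂ) * w i = (E : ℂ) * w i := by
    have h := congrArg (fun v => Uᴴ *ᵥ v) hev
    simp only [mulVec_smul] at h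
    rw [hdec, mulVec_mulVec, ← Matrix.mul_assoc, ← Matrix.mul_assoc, hU, Matrix.one_mul,
      ← mulVec_mulVec, ← hw] at h
    intro i
    have := congrFun h i
    simpa [mulVec_diagonal] using this
  have hne : ∃ i₀, w i₀ ≠ 0 := by
    by_contra h
    push Not at h
    have : nsq Ω = 0 := by
      rw [hΩ, nsq_unitary U hU]; simp [nsq, h]
    linarith
  obtain ⟨i₀, hi₀⟩ := hne
  have hd0 : d i₀ = E := by exact_mod_cast mul_right_cancel₀ hi₀ (hweig i₀)
  have hother : ∀ i, i ≠ i₀ → E + Δ ≤ d i := by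
    intro i hi
    have hwi : w i = 0 := by
      by_contra hwi
      have hdi : d i = E := by exact_mod_cast mul_right_cancel₀ hwi (hweig i)
      have := horth (Pi.single i₀ (-(star (w i))) + Pi.single i (star (w i₀))) (by
        simp [dotProduct_add, dotProduct_single]
        ring)
      rw [Finset.sum_eq_add i₀ i hi.symm (fun j _ hj => by simp [hj.1, hj.2])
        (by simp) (by simp)] at this
      simp [Pi.single_eq_of_ne hi, Pi.single_eq_of_ne hi.symm, hd0, hdi] at this
      nlinarith [Complex.normSq_pos.2 hwi, Complex.normSq_pos.2 hi₀]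
    have := horth (Pi.single i 1) (by simp [dotProduct_single, hwi])
    rw [Finset.sum_eq_single i (fun j _ hj => by simp [hj]) (by simp)] at this
    simp at this
    linarith
  refine ⟨U, d, i₀, w i₀, hU, hdec, hd0, hother, ?_⟩
  conv_lhs => rw [hΩ]
  funext x
  rw [mulVec, dotProduct, Finset.sum_eq_single i₀]
  · simp [mul_comm]
  · intro i _ hi
    have : w i = 0 := by
      by_contra hwi
      have hdi : d i = E := by exact_mod_cast mul_right_cancel₀ hwi (hweig i)
      have := hother i hi
      linarith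
    simp [this]
  · simp

/-- The converse. -/
theorem gapped_of_diag {H : Matrix n n ℂ} {E Δ : ℝ} (U : Matrix n n ℂ) (hU : Uᴴ * U = 1)
    (d : n → ℝ) (i₀ : n) (z : ℂ) (hz : Complex.normSq z = 1)
    (hdec : H = U * diagonal (fun i => (d i : ℂ)) * Uᴴ) (h0 : d i₀ = E)
    (hother : ∀ i, i ≠ i₀ → E + Δ ≤ d i) : Gapped H E Δ (z • fun x => U x i₀) := by
  have hU' : U * Uᴴ = 1 := mul_eq_one_comm.1 hU
  have hcol : (fun x => U x i₀) = U *ᵥ Pi.single i₀ 1 := by
    funext x; simp [mulVec_single]
  refine ⟨?_, ?_, fun v hv => ?_⟩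
  · rw [hcol, ← mulVec_smul, nsq_unitary U hU, nsq,
      Finset.sum_eq_single i₀ (fun j _ hj => by simp [hj]) (by simp)]
    simp [hz]
  · have hds : (diagonal fun i => (d i : ℂ)) *ᵥ Pi.single i₀ 1 = (E : ℂ) • Pi.single i₀ 1 := by
      funext i
      by_cases h : i = i₀
      · subst h; simp [mulVec_diagonal, h0]
      · simp [mulVec_diagonal, h]
    rw [hcol, mulVec_smul, hdec, ← mulVec_mulVec, mulVec_mulVec _ Uᴴ U, hU, one_mulVec,
      ← mulVec_mulVec, hds, mulVec_smul, smul_comm]
  · set u := Uᴴ *ᵥ v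
    have hvu : v = U *ᵥ u := by rw [mulVec_mulVec, hU', one_mulVec]
    have hu0 : u i₀ = 0 := by
      rw [hcol, ← mulVec_smul, star_mulVec, ← dotProduct_mulVec] at hv
      have : star z * u i₀ = 0 := by
        simpa [star_smul, ← Pi.single_star, single_dotProduct] using hv
      refine (mul_eq_zero.1 this).resolve_left ?_
      intro h
      rw [star_eq_zero] at h
      simp [h] at hz
    have hre : (star v ⬝ᵥ (H *ᵥ v)).re = ∑ i, d i * Complex.normSq (u i) := by
      conv_lhs => rw [hvu, hdec]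
      rw [← mulVec_mulVec, mulVec_mulVec _ Uᴴ U, hU, one_mulVec, ← mulVec_mulVec, star_mulVec,
        ← dotProduct_mulVec, mulVec_mulVec _ Uᴴ U, hU, one_mulVec]
      simp only [dotProduct, mulVec_diagonal, Complex.re_sum, Pi.star_apply]
      refine sum_congr rfl fun i _ => ?_
      simp [Complex.normSq_apply]
      ring
    rw [hre, hvu, nsq_unitary U hU, nsq, mul_sum, mul_sum, ← sum_sub_distrib]
    refine sum_le_sum fun i _ => ?_
    by_cases h : i = i₀
    · subst h; simp [hu0]
    · nlinarith [hother i h, Complex.normSq_nonneg (u i)]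

end Vale.Agent.P356
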