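import Vale.Agent.P356.Defs
import Vale.Agent.P356.Spectral

/-!
The area-law conjecture on the square and its asymptotic weakening.
-/

namespace Vale.Agent.P356

open Matrix

/-- The operator norm is at most `J`. -/
def NormLe {n : Type*} [Fintype n] (M : Matrix n n ℂ) (J : ℝ) : Prop :=
  ∀ v : n → ℂ, nsq (M *ᵥ v) ≤ J ^ 2 * nsq v

/-- An admissible family of interaction terms. -/
structure Admissible {q L : ℕ} (R : ℕ) (J : ℝ) (h : Finset (Site L) → Op q L) : Prop where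
  herm : ∀ X, (h X).IsHermitian
  acts : ∀ X, ActsOn X (h X)
  range : ∀ X, h X ≠ 0 → ∀ x ∈ X, ∀ y ∈ X, dist1 x y ≤ R
  empty : h ∅ = 0
  norm : ∀ X, NormLe (h X) J

/-- The area law for given parameters. -/
def AreaLawAt (q R : ℕ) (J Δ : ℝ) : Prop :=
  ∃ C : ℝ, ∀ (L : ℕ), 2 ≤ L → ∀ (h : Finset (Site L) → Op q L) (E : ℝ) (Ω : Conf q L → ℂ)
    (A : Finset (Site L)), Admissible R J h → Gapped (hamOn h Finset.univ) E Δ Ω →
      entropy A Ω ≤ C * ((edgeBoundary A).card : ℝ)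

/-- Question Q1. -/
def AreaLaw : Prop :=
  ∀ (q R : ℕ) (J Δ : ℝ), 2 ≤ q → 0 < J → 0 < Δ → AreaLawAt q R J Δ

/-- The area law up to an error `o(L²)`, and only along some unbounded set of sides `L`. -/
def WeakAreaLawAt (q R : ℕ) (J Δ : ℝ) : Prop :=
  ∃ C : ℝ, ∀ ε : ℝ, 0 < ε → ∀ N : ℕ, ∃ L : ℕ, N ≤ L ∧
    ∀ (h : Finset (Site L) → Op q L) (E : ℝ) (Ω : Conf q L → ℂ) (A : Finset (Site L)),
      Admissible R J h → Gapped (hamOn h Finset.univ) E Δ Ω →
        entropy A Ω ≤ C * ((edgeBoundary A).card : ℝ) + ε * (L : ℝ) ^ 2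

theorem entropy_eq {q L : ℕ} (A : Finset (Site L)) (v : Conf q L → ℂ) :
    entropy A v = specEntropy (reduced A v) :=
  sum_negMulLog_eigenvalues _

end Vale.Agent.P356
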