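import Mathlib

/-!
Definitions for finite range Hamiltonians on the square lattice and the entanglement entropy
of a state vector across a bipartition.
-/

namespace Vale.Agent.P356

open Matrix

/-- The sites of the `L × L` square. -/
abbrev Site (L : ℕ) := Fin L × Fin L

/-- Basis configurations of `(ℂ^q)^{⊗ L²}`. -/
abbrev Conf (q L : ℕ) := Site L → Fin q

/-- Operators, as matrices in the product basis. -/
abbrev Op (q L : ℕ) := Matrix (Conf q L) (Conf q L) ℂ

/-- The `ℓ¹` distance on the square. -/
def dist1 {L : ℕ} (x y : Site L) : ℕ :=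
  ((x.1 : ℤ) - (y.1 : ℤ)).natAbs + ((x.2 : ℤ) - (y.2 : ℤ)).natAbs

/-- `M` is `m ⊗ 1`: it acts on the tensor factors in `X` and as the identity elsewhere. -/
def ActsOn {q L : ℕ} (X : Finset (Site L)) (M : Op q L) : Prop :=
  ∃ m : Matrix ({x // x ∈ X} → Fin q) ({x // x ∈ X} → Fin q) ℂ, ∀ σ τ : Conf q L,
    M σ τ = if ∀ x, x ∉ X → σ x = τ x then m (fun x => σ x.1) (fun x => τ x.1) else 0

/-- The sum of all terms indexed by subsets of `S`. -/
noncomputable def hamOn {q L : ℕ} (h : Finset (Site L) → Op q L) (S : Finset (Site L)) :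
    Op q L :=
  ∑ X ∈ S.powerset, h X

/-- The edge boundary: nearest-neighbour pairs with first point in `A`, second outside. -/
def edgeBoundary {L : ℕ} (A : Finset (Site L)) : Finset (Site L × Site L) :=
  (A ×ˢ Aᶜ).filter fun e => dist1 e.1 e.2 = 1

/-- The configuration equal to `a` on `A` and to `b` off `A`. -/
def glue {q L : ℕ} (A : Finset (Site L)) (a : {x // x ∈ A} → Fin q)
    (b : {x // x ∉ A} → Fin q) : Conf q L :=
  fun x => if hx : x ∈ A then a ⟨x, hx⟩ else b ⟨x, hx⟩

/-- A state vector as a matrix between the configurations on `A` and those off `A`. -/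
def reshape {q L : ℕ} (A : Finset (Site L)) (v : Conf q L → ℂ) :
    Matrix ({x // x ∈ A} → Fin q) ({x // x ∉ A} → Fin q) ℂ :=
  Matrix.of fun a b => v (glue A a b)

/-- The reduced density matrix, the partial trace of `|v⟩⟨v|` over the complement of `A`. -/
noncomputable def reduced {q L : ℕ} (A : Finset (Site L)) (v : Conf q L → ℂ) :
    Matrix ({x // x ∈ A} → Fin q) ({x // x ∈ A} → Fin q) ℂ :=
  reshape A v * (reshape A v)ᴴ

theorem reduced_isHermitian {q L : ℕ} (A : Finset (Site L)) (v : Conf q L → ℂ) :
    (reduced A v).IsHermitian :=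
  isHermitian_mul_conjTranspose_self _

/-- The entropy `-∑ p log p` over the eigenvalues of the reduced density matrix. -/
noncomputable def entropy {q L : ℕ} (A : Finset (Site L)) (v : Conf q L → ℂ) : ℝ :=
  ∑ i, Real.negMulLog ((reduced_isHermitian A v).eigenvalues i)

end Vale.Agent.P356
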