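import Vale.Agent.P356.Conjecture

/-!
Operators pulled back along a decomposition of configurations into a decoded part and a flag.
-/

namespace Vale.Agent.P356

open Matrix Finset

section Norm

variable {n : Type*} [Fintype n]

theorem nsq_eq_norm (v : n → ℂ) :
    nsq v = ‖(WithLp.toLp 2 v : EuclideanSpace ℂ n)‖ ^ 2 := by
  rw [EuclideanSpace.norm_sq_eq]
  simp [nsq, Complex.normSq_eq_norm_sq]

theorem normLe_iff {M : Matrix n n ℂ} {J : ℝ} (hJ : 0 ≤ J) :
    NormLe M J ↔ ∀ v : n → ℂ, ‖(WithLp.toLp 2 (M *ᵥ v) : EuclideanSpace ℂ n)‖ ≤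
      J * ‖(WithLp.toLp 2 v : EuclideanSpace ℂ n)‖ := by
  refine forall_congr' fun v => ?_
  rw [nsq_eq_norm, nsq_eq_norm, ← mul_pow]
  exact ⟨fun h => (pow_le_pow_iff_left₀ (norm_nonneg _) (mul_nonneg hJ (norm_nonneg _))
    two_ne_zero).1 h, fun h => pow_le_pow_left₀ (norm_nonneg _) h 2⟩

theorem NormLe.sum {ι : Type*} (s : Finset ι) (f : ι → Matrix n n ℂ) {J : ℝ} (hJ : 0 ≤ J)
    (h : ∀ i ∈ s, NormLe (f i) J) : NormLe (∑ i ∈ s, f i) (s.card * J) := by
  rw [normLe_iff (by positivity)]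
  intro v
  rw [Matrix.sum_mulVec, WithLp.toLp_sum]
  refine (norm_sum_le _ _).trans ((sum_le_sum fun i hi => (normLe_iff hJ).1 (h i hi) v).trans ?_)
  rw [sum_const, nsmul_eq_mul, mul_assoc]

theorem NormLe.mono {M : Matrix n n ℂ} {J J' : ℝ} (hJ : 0 ≤ J) (hJJ : J ≤ J') (h : NormLe M J) :
    NormLe M J' := fun v => (h v).trans
  (mul_le_mul_of_nonneg_right (pow_le_pow_left₀ hJ hJJ 2) (nsq_nonneg v))

theorem NormLe.add {M N : Matrix n n ℂ} {J J' : ℝ} (hJ : 0 ≤ J) (hJ' : 0 ≤ J') (h : NormLe M J)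
    (h' : NormLe N J') : NormLe (M + N) (J + J') := by
  rw [normLe_iff (by positivity)]
  intro v
  rw [Matrix.add_mulVec, WithLp.toLp_add, add_mul]
  exact (norm_add_le _ _).trans (add_le_add ((normLe_iff hJ).1 h v) ((normLe_iff hJ').1 h' v))

theorem normLe_zero (J : ℝ) : NormLe (0 : Matrix n n ℂ) J := fun v => by
  simpa [nsq] using mul_nonneg (sq_nonneg J) (nsq_nonneg v)

theorem normLe_diagonal [DecidableEq n] (d : n → ℂ) {J : ℝ} (h : ∀ i, ‖d i‖ ≤ J) :
    NormLe (diagonal d) J := fun v => by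
  unfold nsq
  rw [mul_sum]
  refine sum_le_sum fun i _ => ?_
  rw [mulVec_diagonal, Complex.normSq_mul]
  refine mul_le_mul_of_nonneg_right ?_ (Complex.normSq_nonneg _)
  rw [Complex.normSq_eq_norm_sq]
  exact pow_le_pow_left₀ (norm_nonneg _) (h i) 2

end Norm

variable {n a c : Type*} [Fintype n] [DecidableEq n] [Fintype a] [DecidableEq a] [Fintype c]
  [DecidableEq c] (dec : n → a) (anc : n → c)

/-- `M` on the decoded part, the identity on the flag. -/
def pull (M : Matrix a a ℂ) : Matrix n n ℂ :=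
  Matrix.of fun σ τ => if anc σ = anc τ then M (dec σ) (dec τ) else 0

/-- The component of a vector with a given flag. -/
def slice (v : n → ℂ) (k : c) : a → ℂ :=
  fun x => ∑ σ, if dec σ = x ∧ anc σ = k then v σ else 0

omit [Fintype n] [DecidableEq n] [Fintype a] [DecidableEq a] [Fintype c] in
theorem pull_isHermitian {M : Matrix a a ℂ} (hM : M.IsHermitian) :
    (pull dec anc M).IsHermitian := by
  ext σ τ
  simp only [conjTranspose_apply, pull, of_apply]
  by_cases h : anc σ = anc τ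
  · rw [if_pos h, if_pos h.symm]; exact hM.apply _ _
  · rw [if_neg h, if_neg (Ne.symm h), star_zero]

omit [Fintype n] [DecidableEq n] [Fintype a] [DecidableEq a] [Fintype c] in
theorem pull_sum {ι : Type*} (s : Finset ι) (f : ι → Matrix a a ℂ) :
    pull dec anc (∑ i ∈ s, f i) = ∑ i ∈ s, pull dec anc (f i) := by
  ext σ τ
  simp only [pull, of_apply, Matrix.sum_apply]
  split_ifs <;> simp

omit [DecidableEq n] [Fintype c] in
theorem pull_mulVec (M : Matrix a a ℂ) (v : n → ℂ) (σ : n) :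
    (pull dec anc M *ᵥ v) σ = (M *ᵥ slice dec anc v (anc σ)) (dec σ) := by
  simp only [mulVec, dotProduct, pull, of_apply, slice, mul_sum, mul_ite, mul_zero]
  rw [sum_comm]
  refine sum_congr rfl fun τ _ => ?_
  rw [sum_eq_single (dec τ) (fun x _ hx => by simp [Ne.symm hx]) (by simp)]
  by_cases h : anc σ = anc τ <;> simp [h, eq_comm]

omit [DecidableEq n] in
theorem dot_pull (M : Matrix a a ℂ) (v : n → ℂ) :
    star v ⬝ᵥ (pull dec anc M *ᵥ v)
      = ∑ k, star (slice dec anc v k) ⬝ᵥ (M *ᵥ slice dec anc v k) := by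
  conv_lhs => rw [dotProduct]
  simp only [pull_mulVec, dotProduct, Pi.star_apply]
  have : ∀ k x, star (slice dec anc v k x) * (M *ᵥ slice dec anc v k) x
      = ∑ σ, if dec σ = x ∧ anc σ = k then star (v σ) * (M *ᵥ slice dec anc v k) x else 0 := by
    intro k x
    conv_lhs => enter [1, 1]; rw [slice]
    rw [star_sum, sum_mul]
    refine sum_congr rfl fun σ _ => ?_
    split_ifs <;> simp
  simp only [this]
  conv_rhs => enter [2, k]; rw [sum_comm]
  rw [sum_comm]
  refine sum_congr rfl fun σ _ => ?_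
  rw [sum_eq_single (anc σ) (fun k _ hk => by simp [Ne.symm hk]) (by simp),
    sum_eq_single (dec σ) (fun x _ hx => by simp [Ne.symm hx]) (by simp), if_pos ⟨rfl, rfl⟩]

variable {dec anc} (hinj : Function.Injective fun σ => (dec σ, anc σ))
include hinj

omit [Fintype n] [Fintype a] [Fintype c] in
theorem pull_one : pull dec anc (1 : Matrix a a ℂ) = 1 := by
  ext σ τ
  simp only [pull, of_apply, one_apply]
  by_cases h : σ = τ
  · subst h; simp
  · rw [if_neg h]
    split_ifs with h1 h2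
    · exact absurd (hinj (Prod.ext h2 h1)) h
    · rfl
    · rfl

omit [DecidableEq n] in
theorem nsq_slice (v : n → ℂ) : nsq v = ∑ k, nsq (slice dec anc v k) := by
  classical
  have h := dot_pull dec anc (1 : Matrix a a ℂ) v
  rw [pull_one hinj, one_mulVec] at h
  simp only [one_mulVec, dot_self] at h
  exact_mod_cast h

omit [DecidableEq n] [Fintype a] [Fintype c] in
theorem slice_apply (v : n → ℂ) (σ : n) : slice dec anc v (anc σ) (dec σ) = v σ := by
  rw [slice, sum_eq_single σ (fun τ _ hτ => if_neg fun h => hτ (hinj (Prod.ext h.1 h.2)))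
    (by simp), if_pos ⟨rfl, rfl⟩]

omit [DecidableEq n] in
theorem normLe_pull {M : Matrix a a ℂ} {J : ℝ} (hM : NormLe M J) :
    NormLe (pull dec anc M) J := by
  intro v
  rw [nsq_slice hinj v, mul_sum]
  refine le_trans ?_ (sum_le_sum fun k _ => hM (slice dec anc v k))
  set F : c × a → ℝ := fun p => Complex.normSq ((M *ᵥ slice dec anc v p.1) p.2)
  have hi : Function.Injective fun σ => (anc σ, dec σ) := fun σ τ h =>
    hinj (Prod.ext (congrArg Prod.snd h) (congrArg Prod.fst h))
  have : nsq (pull dec anc M *ᵥ v) = ∑ σ, F (anc σ, dec σ) := by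
    simp only [nsq, pull_mulVec, F]
  rw [this]
  refine le_trans ?_ (le_of_eq (Fintype.sum_prod_type F))
  classical
  rw [← sum_image (f := F) hi.injOn]
  exact sum_le_sum_of_subset_of_nonneg (subset_univ _) fun _ _ _ => Complex.normSq_nonneg _

end Vale.Agent.P356
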