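import Vale.Agent.P356.Defs

/-!
Schmidt rank bounds: operators on one side do not increase it, a local operator applied to a
product basis vector creates little of it, and the entropy is at most its logarithm.
-/

namespace Vale.Agent.P356

open Matrix ComplexOrder

variable {q L : ℕ}

theorem glue_mem (A : Finset (Site L)) (a : {x // x ∈ A} → Fin q) (b : {x // x ∉ A} → Fin q)
    {x : Site L} (hx : x ∈ A) : glue A a b x = a ⟨x, hx⟩ := by
  simp [glue, hx]

theorem glue_not_mem (A : Finset (Site L)) (a : {x // x ∈ A} → Fin q)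
    (b : {x // x ∉ A} → Fin q) {x : Site L} (hx : x ∉ A) : glue A a b x = b ⟨x, hx⟩ := by
  simp [glue, hx]

/-- Splitting a configuration along `A`. -/
def splitConf (A : Finset (Site L)) :
    (({x // x ∈ A} → Fin q) × ({x // x ∉ A} → Fin q)) ≃ Conf q L where
  toFun p := glue A p.1 p.2
  invFun σ := (fun x => σ x.1, fun x => σ x.1)
  left_inv p := by
    ext x
    · simp [glue, x.2]
    · simp [glue, x.2]
  right_inv σ := by
    funext x
    by_cases hx : x ∈ A <;> simp [glue, hx]

theorem reshape_smul (A : Finset (Site L)) (c : ℂ) (v : Conf q L → ℂ) :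
    reshape A (c • v) = c • reshape A v := by
  ext a b
  simp [reshape]

theorem rank_reshape_left (A : Finset (Site L)) (M : Op q L) (hM : ActsOn A M)
    (v : Conf q L → ℂ) : (reshape A (M *ᵥ v)).rank ≤ (reshape A v).rank := by
  classical
  obtain ⟨m, hm⟩ := hM
  have h : reshape A (M *ᵥ v) = m * reshape A v := by
    ext a b
    simp only [reshape, of_apply, mulVec, dotProduct, mul_apply]
    rw [← (splitConf A).sum_comp, Fintype.sum_prod_type]
    refine Finset.sum_congr rfl fun a' _ => ?_
    rw [Finset.sum_eq_single b]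
    · rw [hm, if_pos]
      · simp [splitConf, glue]
      · intro x hx
        simp [splitConf, glue, hx]
    · intro b' _ hb
      rw [hm, if_neg, zero_mul]
      intro hall
      apply hb
      funext x
      simpa [splitConf, glue, x.2] using (hall x.1 x.2).symm
    · simp
  rw [h]
  exact rank_mul_le_right _ _

theorem rank_reshape_right (A : Finset (Site L)) (M : Op q L) (hM : ActsOn Aᶜ M)
    (v : Conf q L → ℂ) : (reshape A (M *ᵥ v)).rank ≤ (reshape A v).rank := by
  classical
  obtain ⟨m, hm⟩ := hM
  set m' : Matrix ({x // x ∉ A} → Fin q) ({x // x ∉ A} → Fin q) ℂ :=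
    Matrix.of fun b' b => m (fun x => b ⟨x.1, Finset.mem_compl.1 x.2⟩)
      (fun x => b' ⟨x.1, Finset.mem_compl.1 x.2⟩) with hm'
  have h : reshape A (M *ᵥ v) = reshape A v * m' := by
    ext a b
    simp only [reshape, of_apply, mulVec, dotProduct, mul_apply, hm']
    rw [← (splitConf A).sum_comp, Fintype.sum_prod_type, Finset.sum_comm]
    refine Finset.sum_congr rfl fun b' _ => ?_
    rw [Finset.sum_eq_single a]
    · rw [hm, if_pos, mul_comm]
      · congr 2 <;> funext x <;> simp [splitConf, glue, Finset.mem_compl.1 x.2]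
      · intro x hx
        have hxA : x ∈ A := by simpa using hx
        simp [splitConf, glue, hxA]
    · intro a' _ ha
      rw [hm, if_neg, zero_mul]
      intro hall
      apply ha
      funext x
      simpa [splitConf, glue, x.2] using (hall x.1 (by simpa using x.2)).symm
    · simp
  rw [h]
  exact rank_mul_le_left _ _

/-- An operator on `Y` applied to a product basis vector has Schmidt rank at most
`q ^ |A ∩ Y|`. -/
theorem rank_reshape_single (A Y : Finset (Site L)) (M : Op q L) (hM : ActsOn Y M)
    (σ : Conf q L) :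
    (reshape A (M *ᵥ Pi.single σ 1)).rank ≤ q ^ (A ∩ Y).card := by
  classical
  obtain ⟨m, hm⟩ := hM
  set P := reshape A (M *ᵥ Pi.single σ 1) with hP
  let good : ({x // x ∈ A} → Fin q) → Prop := fun a => ∀ x, x.1 ∉ Y → a x = σ x.1
  let d : ({x // x ∈ A} → Fin q) → ℂ := fun a => if good a then 1 else 0
  have hd : P = diagonal d * P := by
    ext a b
    rw [diagonal_mul]
    by_cases hg : good a
    · simp [d, hg]
    · have : P a b = 0 := by
        simp only [hP, reshape, of_apply, mulVec_single, MulOpposite.op_one, one_smul, col_apply]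
        rw [hm, if_neg]
        intro hall
        apply hg
        intro x hx
        have := hall x.1 hx
        simp [glue, x.2] at this ⊢; exact this
      simp [this]
  rw [hd]
  refine (rank_mul_le_left _ _).trans ?_
  rw [rank_diagonal]
  let f : {a // d a ≠ 0} → ({x // x ∈ A ∩ Y} → Fin q) := fun a x =>
    a.1 ⟨x.1, (Finset.mem_inter.1 x.2).1⟩
  have hf : Function.Injective f := by
    intro a a' haa
    have hga : good a.1 := by
      by_contra h
      exact a.2 (by simp [d, h])
    have hga' : good a'.1 := by
      by_contra h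
      exact a'.2 (by simp [d, h])
    ext1
    funext x
    by_cases hx : x.1 ∈ Y
    · exact congrFun haa ⟨x.1, Finset.mem_inter.2 ⟨x.2, hx⟩⟩
    · rw [hga x hx, hga' x hx]
  refine (Fintype.card_le_of_injective f hf).trans_eq ?_
  rw [Fintype.card_fun, Fintype.card_fin, Fintype.card_coe]

theorem entropy_le_log_rank (A : Finset (Site L)) (v : Conf q L → ℂ)
    (hv : ∑ σ, Complex.normSq (v σ) = 1) :
    entropy A v ≤ Real.log (reshape A v).rank := by
  classical
  have hH := reduced_isHermitian A v
  have hnn : ∀ i, 0 ≤ hH.eigenvalues i := fun i =>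
    eigenvalues_self_mul_conjTranspose_nonneg (reshape A v) i
  have hsum : ∑ i, hH.eigenvalues i = 1 := by
    have h1 : (reduced A v).trace = ∑ i, (hH.eigenvalues i : ℂ) := hH.trace_eq_sum_eigenvalues
    have h2 : (reduced A v).trace = ((∑ σ, Complex.normSq (v σ) : ℝ) : ℂ) := by
      rw [← (splitConf A).sum_comp, Fintype.sum_prod_type]
      simp [reduced, trace, mul_apply, reshape, splitConf, Complex.normSq_eq_conj_mul_self,
        mul_comm]
    rw [h2, hv] at h1
    exact_mod_cast h1.symm
  set s := Finset.univ.filter fun i => hH.eigenvalues i ≠ 0 with hs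
  have hrank : (reshape A v).rank = s.card := by
    rw [← rank_self_mul_conjTranspose (reshape A v)]
    exact hH.rank_eq_card_non_zero_eigs.trans (by rw [Fintype.card_subtype])
  have hsum' : ∑ i ∈ s, hH.eigenvalues i = 1 := by
    rw [hs, Finset.sum_filter_ne_zero]; exact hsum
  have hne : s.Nonempty := by
    rw [Finset.nonempty_iff_ne_empty]
    intro he
    simp [he] at hsum'
  have hr : (0 : ℝ) < s.card := by exact_mod_cast hne.card_pos
  have hent : entropy A v = ∑ i ∈ s, Real.negMulLog (hH.eigenvalues i) := by
    refine (Finset.sum_subset (Finset.subset_univ _) ?_).symm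
    intro i _ hi
    have : hH.eigenvalues i = 0 := by simpa [hs] using hi
    simp [this]
  rw [hent, hrank]
  have key : ∀ i ∈ s, Real.negMulLog (hH.eigenvalues i) ≤
      hH.eigenvalues i * Real.log s.card + ((s.card : ℝ)⁻¹ - hH.eigenvalues i) := by
    intro i hi
    have hp : 0 < hH.eigenvalues i :=
      lt_of_le_of_ne (hnn i) (fun h => (Finset.mem_filter.1 hi).2 h.symm)
    have hl := Real.log_le_sub_one_of_pos (show 0 < ((s.card : ℝ) * hH.eigenvalues i)⁻¹ by
      positivity)
    rw [Real.log_inv, Real.log_mul hr.ne' hp.ne'] at hl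
    have := mul_le_mul_of_nonneg_left hl hp.le
    have h3 : hH.eigenvalues i * ((s.card : ℝ) * hH.eigenvalues i)⁻¹ = (s.card : ℝ)⁻¹ := by
      field_simp
    simp only [Real.negMulLog]
    nlinarith
  refine (Finset.sum_le_sum key).trans ?_
  rw [Finset.sum_add_distrib, ← Finset.sum_mul, Finset.sum_sub_distrib, hsum', Finset.sum_const,
    nsmul_eq_mul, mul_inv_cancel₀ hr.ne']
  simp

end Vale.Agent.P356
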