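import Vale.Agent.P356.Local
import Vale.Agent.P356.Operators
import Vale.Agent.P356.SchmidtRank
import Vale.Agent.P356.Lattice

/-!
Encoding groups of sites into groups of sites of another square, with an energy penalty for
configurations outside the code.
-/

namespace Vale.Agent.P356

open Matrix Finset

variable {q q' L L' : ℕ} [NeZero q] [NeZero q'] {G : Type} [Fintype G] [DecidableEq G]
  (s : Site L → G) (t : Site L' → G)
  (code : ∀ g, ({x // s x = g} → Fin q) → ({y // t y = g} → Fin q'))

namespace Enc

/-- The configuration of one group. -/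
def res (σ : Conf q' L') (g : G) : {y // t y = g} → Fin q' := fun y => σ y.1

/-- The decoded configuration. -/
noncomputable def dec (σ : Conf q' L') : Conf q L :=
  fun x => Function.invFun (code (s x)) (res t σ (s x)) ⟨x, rfl⟩

open scoped Classical in
/-- The flag: the groups outside the code, with their configurations. -/
noncomputable def anc (σ : Conf q' L') : ∀ g, Option ({y // t y = g} → Fin q') :=
  fun g => if res t σ g ∈ Set.range (code g) then none else some (res t σ g)

/-- The code word of a configuration. -/
def enc (z : Conf q L) : Conf q' L' :=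
  fun y => code (t y) (fun x => z x.1) ⟨y, rfl⟩

theorem res_enc (z : Conf q L) (g : G) :
    res t (enc s t code z) g = code g (fun x => z x.1) := by
  funext ⟨y, hy⟩
  subst hy
  rfl

theorem dec_fiber (σ : Conf q' L') (g : G) (x : {x // s x = g}) :
    dec s t code σ x.1 = Function.invFun (code g) (res t σ g) x := by
  obtain ⟨x, hx⟩ := x
  subst hx
  rfl

variable (hinj : ∀ g, Function.Injective (code g))
include hinj

theorem dec_enc (z : Conf q L) : dec s t code (enc s t code z) = z := by
  funext x
  simp only [dec, res_enc, Function.leftInverse_invFun (hinj (s x)) _]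

theorem anc_enc (z : Conf q L) : anc s t code (enc s t code z) = fun _ => none := by
  funext g
  rw [anc, if_pos]
  exact ⟨_, (res_enc s t code z g).symm⟩

theorem res_eq_of_none (σ : Conf q' L') (g : G) (h : anc s t code σ g = none) :
    res t σ g = code g (fun x => dec s t code σ x.1) := by
  classical
  have hm : res t σ g ∈ Set.range (code g) := by
    by_contra hne
    simp [anc, hne] at h
  have e : (fun x => dec s t code σ x.1) = Function.invFun (code g) (res t σ g) :=
    funext fun x => dec_fiber s t code σ g x
  rw [e, Function.invFun_eq hm]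

theorem res_determined (σ τ : Conf q' L') (g : G)
    (hd : ∀ x : {x // s x = g}, dec s t code σ x.1 = dec s t code τ x.1)
    (ha : anc s t code σ g = anc s t code τ g) : res t σ g = res t τ g := by
  classical
  by_cases hn : anc s t code σ g = none
  · rw [res_eq_of_none s t code hinj σ g hn, res_eq_of_none s t code hinj τ g (ha ▸ hn)]
    exact congrArg _ (funext hd)
  · by_cases hs : res t σ g ∈ Set.range (code g)
    · exact absurd (by simp [anc, hs]) hn
    · by_cases ht : res t τ g ∈ Set.range (code g)
      · simp [anc, hs, ht] at ha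
      · simpa [anc, hs, ht] using ha

theorem dec_anc_injective :
    Function.Injective fun σ => (dec s t code σ, anc s t code σ) := by
  intro σ τ h
  simp only [Prod.mk.injEq] at h
  funext y
  exact congrFun (res_determined s t code hinj σ τ (t y) (fun x => by rw [h.1])
    (congrFun h.2 (t y))) ⟨y, rfl⟩

theorem eq_enc_of_anc (σ : Conf q' L') (h : anc s t code σ = fun _ => none) :
    σ = enc s t code (dec s t code σ) :=
  dec_anc_injective s t code hinj
    (Prod.ext (dec_enc s t code hinj _).symm (h.trans (anc_enc s t code hinj _).symm))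

end Enc

open Enc

/-- The image of a set of sites. -/
def hostSet (X : Finset (Site L)) : Finset (Site L') :=
  univ.filter fun y => ∃ x ∈ X, s x = t y

/-- The sites of one group. -/
def fibre (g : G) : Finset (Site L') := univ.filter fun y => t y = g

/-- The number of groups outside the code. -/
noncomputable def badAt (g : G) (σ : Conf q' L') : ℂ :=
  if anc s t code σ g = none then 0 else 1

/-- The supports of the encoded terms. -/
def supp : Finset (Site L) ⊕ G → Finset (Site L') := Sum.elim (hostSet s t) (fibre t)

/-- The encoded terms. -/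
noncomputable def terms (Δ : ℝ) (h : Finset (Site L) → Op q L) :
    Finset (Site L) ⊕ G → Op q' L' :=
  Sum.elim (fun X => pull (dec s t code) (anc s t code) (h X))
    fun g => (Δ : ℂ) • diagonal (badAt s t code g)

theorem acts_pull (hinj : ∀ g, Function.Injective (code g)) {X : Finset (Site L)}
    {M : Op q L} (hM : ActsOn X M) :
    ActsOn (hostSet s t X) (pull (dec s t code) (anc s t code) M) := by
  classical
  refine actsOn_of _ _ (fun σ τ y hy hne => ?_) fun σ τ σ' τ' h1 h2 h3 h4 => ?_
  · simp only [pull, of_apply]
    split_ifs with ha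
    · have hout : ∀ x, s x = t y → x ∉ X := fun x hx hxX => hy (by
        simp only [hostSet, mem_filter, mem_univ, true_and]; exact ⟨x, hxX, hx⟩)
      by_contra h0
      refine hne (congrFun (res_determined s t code hinj σ τ (t y) (fun x => ?_)
        (congrFun ha (t y))) ⟨y, rfl⟩)
      by_contra hd
      exact h0 (hM.eq_zero _ _ (hout x.1 x.2) hd)
    · rfl
  · have hin : ∀ g, (∃ x ∈ X, s x = g) →
        res t σ g = res t σ' g ∧ res t τ g = res t τ' g := by
      rintro g ⟨x, hx, rfl⟩
      constructor <;> funext ⟨y, hy⟩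
      · exact h3 y (by simp only [hostSet, mem_filter, mem_univ, true_and]; exact ⟨x, hx, hy.symm⟩)
      · exact h4 y (by simp only [hostSet, mem_filter, mem_univ, true_and]; exact ⟨x, hx, hy.symm⟩)
    have hout : ∀ g, ¬ (∃ x ∈ X, s x = g) → res t σ g = res t τ g ∧ res t σ' g = res t τ' g := by
      intro g hg
      constructor <;> funext ⟨y, hy⟩
      · exact h1 y (by
          simp only [hostSet, mem_filter, mem_univ, true_and]; exact fun ⟨x, hx, e⟩ => hg ⟨x, hx, e.trans hy⟩)
      · exact h2 y (by
          simp only [hostSet, mem_filter, mem_univ, true_and]; exact fun ⟨x, hx, e⟩ => hg ⟨x, hx, e.trans hy⟩)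
    have ha : anc s t code σ = anc s t code τ ↔ anc s t code σ' = anc s t code τ' := by
      simp only [funext_iff]
      refine forall_congr' fun g => ?_
      by_cases hg : ∃ x ∈ X, s x = g
      · simp only [anc, (hin g hg).1, (hin g hg).2]
      · simp only [anc, (hout g hg).1, (hout g hg).2]
    have hY : ActsOn (univ.filter fun x => ∃ x' ∈ X, s x' = s x) M :=
      hM.mono fun x hx => mem_filter.2 ⟨mem_univ _, x, hx, rfl⟩
    simp only [pull, of_apply]
    refine if_congr ha (hY.congr (fun x hx => ?_) (fun x hx => ?_) (fun x hx => ?_)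
      fun x hx => ?_) rfl <;> simp only [mem_filter, mem_univ, true_and] at hx
    · simp only [dec, (hout _ hx).1]
    · simp only [dec, (hout _ hx).2]
    · simp only [dec, (hin _ hx).1]
    · simp only [dec, (hin _ hx).2]

theorem acts_bad (g : G) : ActsOn (fibre t g) (diagonal (badAt s t code g) : Op q' L') := by
  classical
  refine actsOn_of _ _ (fun σ τ y _ hne => diagonal_apply_ne _ fun h => hne (by rw [h]))
    fun σ τ σ' τ' h1 h2 h3 h4 => ?_
  have hres : res t σ g = res t σ' g := funext fun ⟨y, hy⟩ =>
    h3 y (mem_filter.2 ⟨mem_univ _, hy⟩)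
  have hiff : σ = τ ↔ σ' = τ' := by
    constructor <;> intro h <;> funext y <;> by_cases hy : y ∈ fibre t g
    · rw [← h3 y hy, ← h4 y hy, h]
    · exact h2 y hy
    · rw [h3 y hy, h4 y hy, h]
    · exact h1 y hy
  simp only [diagonal_apply]
  refine if_congr hiff ?_ rfl
  simp only [badAt, anc, hres]
  rfl

theorem empty_of_supp
    (hsurj : ∀ x, ∃ y, t y = s x) {Δ : ℝ} {h : Finset (Site L) → Op q L} (h0 : h ∅ = 0)
    (i : Finset (Site L) ⊕ G) (hi : supp s t i = ∅) : terms s t code Δ h i = 0 := by
  classical
  cases i with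
  | inl X =>
    have : X = ∅ := by
      rcases X.eq_empty_or_nonempty with h | ⟨x, hx⟩
      · exact h
      obtain ⟨y, hy⟩ := hsurj x
      have hm : y ∈ hostSet s t X := mem_filter.2 ⟨mem_univ _, x, hx, hy.symm⟩
      rw [show hostSet s t X = ∅ from hi] at hm
      simp at hm
    subst this
    ext σ τ
    simp [terms, pull, h0]
  | inr g =>
    have hz : badAt s t code g = fun _ : Conf q' L' => (0 : ℂ) := by
      funext σ
      rw [badAt, if_pos]
      rw [anc, if_pos]
      refine ⟨fun _ => 0, funext fun ⟨y, hy⟩ => ?_⟩
      have hm : y ∈ fibre t g := mem_filter.2 ⟨mem_univ _, hy⟩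
      rw [show fibre t g = ∅ from hi] at hm
      simp at hm
    simp [terms, hz]

/-- The size of the encoded terms. -/
theorem norm_collect (hinj : ∀ g, Function.Injective (code g))
    (hsurj : ∀ x, ∃ y, t y = s x) {R W : ℕ} {J Δ J' : ℝ} (hJ : 0 ≤ J) (hΔ : 0 ≤ Δ)
    (hW : ∀ g, (univ.filter fun x => s x = g).card ≤ W)
    (hJ' : (2 : ℝ) ^ (W * (2 * R + 1) ^ 2) * J + Δ ≤ J')
    {h : Finset (Site L) → Op q L} (hh : Admissible R J h) (X' : Finset (Site L')) :
    NormLe (collect (supp s t) (terms s t code Δ h) X') J' := by
  classical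
  have hpos : 0 ≤ (2 : ℝ) ^ (W * (2 * R + 1) ^ 2) * J := by positivity
  rcases X'.eq_empty_or_nonempty with rfl | ⟨y₀, hy₀⟩
  · rw [collect, sum_eq_zero fun i hi =>
      empty_of_supp s t code hsurj hh.empty i (mem_filter.1 hi).2]
    exact normLe_zero _
  refine NormLe.mono (by positivity) hJ' ?_
  rw [collect, sum_filter, Fintype.sum_sum_type, ← sum_filter, ← sum_filter]
  refine NormLe.add hpos hΔ ?_ ?_
  · rw [← sum_filter_of_ne (p := fun X => h X ≠ 0) (fun X _ hne hz => hne (by
      ext σ τ; simp [terms, pull, hz]))]
    refine NormLe.mono (by positivity) ?_ (NormLe.sum _ _ hJ fun X _ =>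
      normLe_pull (dec_anc_injective s t code hinj) (hh.norm X))
    refine mul_le_mul_of_nonneg_right ?_ hJ
    set ball := (univ.filter fun x => s x = t y₀).biUnion
      fun x₀ => univ.filter fun x => dist1 x x₀ ≤ R
    have hsub : ((univ.filter fun X => supp s t (Sum.inl X : Finset (Site L) ⊕ G) = X').filter
        fun X => h X ≠ 0) ⊆ ball.powerset := by
      intro X hX
      obtain ⟨hX, hne⟩ := mem_filter.1 hX
      have hX' : hostSet s t X = X' := (mem_filter.1 hX).2
      rw [← hX'] at hy₀
      obtain ⟨x₀, hx₀, he⟩ := (mem_filter.1 hy₀).2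
      rw [mem_powerset]
      intro x hx
      exact mem_biUnion.2 ⟨x₀, mem_filter.2 ⟨mem_univ _, he⟩,
        mem_filter.2 ⟨mem_univ _, hh.range X hne x hx x₀ hx₀⟩⟩
    have hball : ball.card ≤ W * (2 * R + 1) ^ 2 :=
      (card_biUnion_le.trans (sum_le_card_nsmul _ _ _ fun x₀ _ => card_ball_le R x₀)).trans
        (by rw [smul_eq_mul]; exact Nat.mul_le_mul_right _ (hW _))
    have := (card_le_card hsub).trans ((card_powerset ball).le.trans
      (Nat.pow_le_pow_right two_pos hball))
    exact_mod_cast this
  · refine NormLe.mono (by positivity) ?_ (NormLe.sum _ _ hΔ fun g _ => ?_)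
    · refine mul_le_of_le_one_left hΔ ?_
      have : (univ.filter fun g : G => supp s t (Sum.inr g : Finset (Site L) ⊕ G) = X').card ≤ 1 := by
        refine card_le_one.2 fun g hg g' hg' => ?_
        have e : ∀ {g}, supp s t (Sum.inr g : Finset (Site L) ⊕ G) = X' → t y₀ = g := fun {g} e => by
          rw [← show fibre t g = X' from e] at hy₀
          exact (mem_filter.1 hy₀).2
        rw [← e (mem_filter.1 hg).2, ← e (mem_filter.1 hg').2]
      exact_mod_cast this
    · show NormLe ((Δ : ℂ) • diagonal (badAt s t code g)) Δ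
      rw [← diagonal_smul]
      refine normLe_diagonal _ fun σ => ?_
      simp only [Pi.smul_apply, badAt]
      split_ifs <;> simp [Complex.norm_real, abs_of_nonneg hΔ, hΔ]

/-- The encoded interaction is admissible. -/
theorem admissible_collect (hinj : ∀ g, Function.Injective (code g))
    (hsurj : ∀ x, ∃ y, t y = s x) {R R' W : ℕ} {J Δ J' : ℝ} (hJ : 0 ≤ J) (hΔ : 0 ≤ Δ)
    (hW : ∀ g, (univ.filter fun x => s x = g).card ≤ W)
    (hJ' : (2 : ℝ) ^ (W * (2 * R + 1) ^ 2) * J + Δ ≤ J')
    (hloc : ∀ y y', (t y = t y' ∨ ∃ x x', s x = t y ∧ s x' = t y' ∧ dist1 x x' ≤ R) →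
      dist1 y y' ≤ R')
    {h : Finset (Site L) → Op q L} (hh : Admissible R J h) :
    Admissible R' J' (collect (supp s t) (terms s t code Δ h)) where
  herm X' := isHermitian_sum _ _ fun i _ => by
    cases i with
    | inl X => exact pull_isHermitian _ _ (hh.herm X)
    | inr g =>
      rw [terms, Sum.elim_inr, ← diagonal_smul]
      refine isHermitian_diagonal_of_self_adjoint _ ?_
      funext σ
      simp only [Pi.star_apply, Pi.smul_apply, badAt]
      split_ifs <;> simp
  acts X' := ActsOn.sum _ _ fun i hi => by
    rw [← (mem_filter.1 hi).2]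
    cases i with
    | inl X => exact acts_pull s t code hinj (hh.acts X)
    | inr g => exact (acts_bad s t code g).smul _
  range X' hne y hy y' hy' := by
    obtain ⟨i, hi, hterm⟩ := exists_ne_zero_of_sum_ne_zero hne
    obtain ⟨-, rfl⟩ := mem_filter.1 hi
    cases i with
    | inl X =>
      obtain ⟨x, hx, e⟩ := (mem_filter.1 hy).2
      obtain ⟨x', hx', e'⟩ := (mem_filter.1 hy').2
      refine hloc y y' (Or.inr ⟨x, x', e, e', hh.range X (fun hz => hterm ?_) x hx x' hx'⟩)
      ext σ τ
      simp [terms, pull, hz]
    | inr g => exact hloc y y' (Or.inl ((mem_filter.1 hy).2.trans (mem_filter.1 hy').2.symm))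
  empty := by
    rw [collect, sum_eq_zero fun i hi =>
      empty_of_supp s t code hsurj hh.empty i (mem_filter.1 hi).2]
  norm := norm_collect s t code hinj hsurj hJ hΔ hW hJ' hh

theorem Enc.anc_eq_none_iff (σ : Conf q' L') :
    (∀ g, anc s t code σ g = none) ↔ anc s t code σ = fun _ => none :=
  ⟨funext, fun h g => congrFun h g⟩

/-- The encoded ground state. -/
noncomputable def encState (Ω : Conf q L → ℂ) : Conf q' L' → ℂ :=
  fun σ => if anc s t code σ = fun _ => none then Ω (dec s t code σ) else 0

theorem slice_encState (hinj : ∀ g, Function.Injective (code g)) (Ω : Conf q L → ℂ)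
    (k : ∀ g, Option ({y // t y = g} → Fin q')) :
    slice (dec s t code) (anc s t code) (encState s t code Ω) k
      = if k = fun _ => none then Ω else 0 := by
  funext z
  have hval : ∀ σ, (if dec s t code σ = z ∧ anc s t code σ = k then encState s t code Ω σ else 0)
      = if σ = enc s t code z then (if k = fun _ => none then Ω z else 0) else 0 := by
    intro σ
    by_cases hσ : σ = enc s t code z
    · subst hσ
      simp only [encState, dec_enc s t code hinj, anc_enc s t code hinj, if_true, true_and]
      exact if_congr eq_comm rfl rfl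
    · rw [if_neg hσ]
      split_ifs with h
      · rw [encState, if_neg]
        intro ha
        exact hσ ((eq_enc_of_anc s t code hinj σ ha).trans (by rw [h.1]))
      · rfl
  rw [slice, sum_congr rfl fun σ _ => hval σ, sum_ite_eq', if_pos (mem_univ _)]
  split_ifs <;> rfl

/-- The encoded Hamiltonian is gapped. -/
theorem gapped_collect (hinj : ∀ g, Function.Injective (code g)) {Δ E : ℝ} (hΔ : 0 < Δ)
    {h : Finset (Site L) → Op q L} {Ω : Conf q L → ℂ} (hherm : ∀ X, (h X).IsHermitian)
    (hg : Gapped (hamOn h univ) E Δ Ω) :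
    Gapped (hamOn (collect (supp s t) (terms s t code Δ h)) univ) E Δ (encState s t code Ω) := by
  classical
  set H := hamOn h univ
  have hH : H.IsHermitian := isHermitian_sum _ _ fun X _ => hherm X
  set bad : (∀ g, Option ({y // t y = g} → Fin q')) → ℝ := fun k =>
    ∑ g, if k g = none then 0 else 1 with hbad
  set H' := hamOn (collect (supp s t) (terms s t code Δ h)) univ
  have hH' : H' = pull (dec s t code) (anc s t code) H
      + diagonal fun σ => ((Δ * bad (anc s t code σ) : ℝ) : ℂ) := by
    simp only [H', hamOn_collect, Fintype.sum_sum_type, terms, Sum.elim_inl, Sum.elim_inr,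
      ← pull_sum]
    congr 1
    · ext σ τ
      simp only [Matrix.sum_apply, Matrix.smul_apply, diagonal_apply, smul_eq_mul, mul_ite, mul_zero]
      by_cases hst : σ = τ
      · subst hst
        simp only [if_true, hbad, badAt]
        push_cast
        rw [mul_sum]
        refine sum_congr rfl fun g _ => ?_
        split_ifs <;> simp
      · simp [hst]
  have hinj' := dec_anc_injective s t code hinj
  have hbad0 : ∀ k, k ≠ (fun _ => none) → 1 ≤ bad k := by
    intro k hk
    obtain ⟨g, hg⟩ := Function.ne_iff.1 hk
    refine le_trans ?_ (single_le_sum (fun g _ => by split_ifs <;> norm_num) (mem_univ g))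
    simp [hg]
  refine ⟨?_, ?_, fun v hv => ?_⟩
  · rw [nsq_slice hinj', sum_eq_single (fun _ => none)]
    · rw [slice_encState s t code hinj, if_pos rfl, hg.1]
    · intro k _ hk
      rw [slice_encState s t code hinj, if_neg hk]
      simp [nsq]
    · simp
  · funext σ
    rw [hH', add_mulVec, Pi.add_apply, pull_mulVec, mulVec_diagonal, slice_encState s t code hinj]
    by_cases ha : anc s t code σ = fun _ => none
    · simp [ha, hg.2.1, encState, hbad]
    · simp [ha, encState]
  · have hv0 : star Ω ⬝ᵥ slice (dec s t code) (anc s t code) v (fun _ => none) = 0 := by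
      rw [← hv]
      simp only [dotProduct, slice, Pi.star_apply, encState, mul_sum]
      rw [sum_comm]
      refine sum_congr rfl fun σ _ => ?_
      rw [sum_eq_single (dec s t code σ) (fun z _ hz => by simp [Ne.symm hz]) (by simp)]
      by_cases ha : anc s t code σ = fun _ => none <;> simp [ha]
    have hdiag : (star v ⬝ᵥ (diagonal (fun σ => ((Δ * bad (anc s t code σ) : ℝ) : ℂ)) *ᵥ v)).re
        = ∑ k, Δ * bad k * nsq (slice (dec s t code) (anc s t code) v k) := by
      have e : ∀ k, nsq (slice (dec s t code) (anc s t code) v k)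
          = ∑ σ, if anc s t code σ = k then Complex.normSq (v σ) else 0 := by
        intro k
        rw [← sum_filter, nsq]
        have : ∀ z, Complex.normSq (slice (dec s t code) (anc s t code) v k z)
            = ∑ σ, if dec s t code σ = z ∧ anc s t code σ = k then Complex.normSq (v σ) else 0 := by
          intro z
          by_cases hz : ∃ σ, dec s t code σ = z ∧ anc s t code σ = k
          · obtain ⟨σ, rfl, rfl⟩ := hz
            rw [slice_apply hinj', sum_eq_single σ
              (fun τ _ hτ => if_neg fun h => hτ (hinj' (Prod.ext h.1 h.2))) (by simp), if_pos ⟨rfl, rfl⟩]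
          · push Not at hz
            rw [slice, sum_eq_zero fun σ _ => if_neg fun h => hz σ h.1 h.2,
              sum_eq_zero fun σ _ => if_neg fun h => hz σ h.1 h.2, map_zero]
        simp only [this]
        rw [sum_comm, sum_filter]
        refine sum_congr rfl fun σ _ => ?_
        rw [sum_eq_single (dec s t code σ) (fun z _ hz => by simp [Ne.symm hz]) (by simp)]
        simp
      simp only [e, mul_sum, mul_ite, mul_zero]
      rw [sum_comm, dotProduct, Complex.re_sum]
      refine sum_congr rfl fun σ _ => ?_
      rw [sum_ite_eq, if_pos (mem_univ _)]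
      simp [mulVec_diagonal, Complex.normSq_apply]
      ring
    rw [hH', add_mulVec, dotProduct_add, Complex.add_re, dot_pull, Complex.re_sum, hdiag,
      nsq_slice hinj' v, mul_sum, mul_sum, ← sum_add_distrib, ← sum_sub_distrib]
    refine sum_le_sum fun k _ => ?_
    by_cases hk : k = fun _ => none
    · subst hk
      have := hg.2.2 _ hv0
      simp [hbad]
      linarith
    · have := hg.le_quad hH hΔ (slice (dec s t code) (anc s t code) v k)
      have := mul_le_mul_of_nonneg_right (le_mul_of_one_le_right hΔ.le (hbad0 k hk))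
        (nsq_nonneg (slice (dec s t code) (anc s t code) v k))
      linarith

/-- Local isometries on the two sides do not change the entropy. -/
theorem entropy_push (A : Finset (Site L)) (A' : Finset (Site L')) (Ω : Conf q L → ℂ)
    (Ω' : Conf q' L' → ℂ) (VA : Matrix ({y // y ∈ A'} → Fin q') ({x // x ∈ A} → Fin q) ℂ)
    (VB : Matrix ({y // y ∉ A'} → Fin q') ({x // x ∉ A} → Fin q) ℂ) (hVA : VAᴴ * VA = 1)
    (hVB : VBᴴ * VB = 1) (hre : reshape A' Ω' = VA * reshape A Ω * VBᴴ) :
    entropy A' Ω' = entropy A Ω := by
  rw [entropy_eq, entropy_eq, reduced, reduced, hre, conjTranspose_mul, conjTranspose_mul,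
    conjTranspose_conjTranspose]
  rw [show VA * reshape A Ω * VBᴴ * (VB * ((reshape A Ω)ᴴ * VAᴴ))
      = VA * (reshape A Ω * (reshape A Ω)ᴴ) * VAᴴ by
    simp only [Matrix.mul_assoc]
    rw [← Matrix.mul_assoc VBᴴ VB, hVB, Matrix.one_mul]]
  exact specEntropy_isometry VA hVA _

/-- A product of injections of product configurations preserves the entropy. -/
theorem entropy_of_glue (A : Finset (Site L)) (A' : Finset (Site L'))
    (ea : ({x // x ∈ A} → Fin q) → ({y // y ∈ A'} → Fin q'))
    (eb : ({x // x ∉ A} → Fin q) → ({y // y ∉ A'} → Fin q'))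
    (hea : Function.Injective ea) (heb : Function.Injective eb) (Ω : Conf q L → ℂ)
    (Ω' : Conf q' L' → ℂ) (hon : ∀ a b, Ω' (glue A' (ea a) (eb b)) = Ω (glue A a b))
    (hoff : ∀ u w, (¬ ∃ a b, ea a = u ∧ eb b = w) → Ω' (glue A' u w) = 0) :
    entropy A' Ω' = entropy A Ω := by
  classical
  refine entropy_push A A' Ω Ω' (Matrix.of fun u a => if u = ea a then 1 else 0)
    (Matrix.of fun w b => if w = eb b then 1 else 0) ?_ ?_ ?_
  · ext a a'
    simp [mul_apply, one_apply, hea.eq_iff, apply_ite (star : ℂ → ℂ), eq_comm]
  · ext b b'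
    simp [mul_apply, one_apply, heb.eq_iff, apply_ite (star : ℂ → ℂ), eq_comm]
  · ext u w
    simp only [reshape, of_apply, mul_apply, conjTranspose_apply, apply_ite (star : ℂ → ℂ),
      star_one, star_zero, ite_mul, one_mul, zero_mul, mul_ite, mul_one, mul_zero]
    by_cases hσ : ∃ a b, ea a = u ∧ eb b = w
    · obtain ⟨a, b, rfl, rfl⟩ := hσ
      rw [hon, sum_eq_single b, if_pos rfl, sum_eq_single a, if_pos rfl]
      · intro a' _ ha
        rw [if_neg (hea.ne ha.symm)]
      · simp
      · intro b' _ hb
        rw [if_neg (heb.ne hb.symm)]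
      · simp
    · rw [hoff u w hσ]
      refine (sum_eq_zero fun b _ => ?_).symm
      split_ifs with h1
      · refine sum_eq_zero fun a _ => ?_
        rw [if_neg fun h2 => hσ ⟨a, b, h2.symm, h1.symm⟩]
      · rfl

/-- Encoding preserves the entropy of regions made of whole groups. -/
theorem entropy_encState (hinj : ∀ g, Function.Injective (code g)) (side : G → Bool)
    (A : Finset (Site L)) (hA : ∀ x, x ∈ A ↔ side (s x) = true) (Ω : Conf q L → ℂ) :
    entropy (univ.filter fun y => side (t y) = true) (encState s t code Ω) = entropy A Ω := by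
  classical
  set A' := univ.filter fun y => side (t y) = true with hA'
  have hA'm : ∀ y, y ∈ A' ↔ side (t y) = true := fun y => by simp [A']
  let ea : ({x // x ∈ A} → Fin q) → ({y // y ∈ A'} → Fin q') := fun a y =>
    code (t y.1) (fun x => a ⟨x.1, (hA x.1).2 (by rw [x.2]; exact (hA'm y.1).1 y.2)⟩) ⟨y.1, rfl⟩
  let eb : ({x // x ∉ A} → Fin q) → ({y // y ∉ A'} → Fin q') := fun b y =>
    code (t y.1) (fun x => b ⟨x.1, fun hx => y.2 ((hA'm y.1).2 (by
      rw [← x.2]; exact (hA x.1).1 hx))⟩) ⟨y.1, rfl⟩
  have hglue : ∀ a b, enc s t code (glue A a b) = glue A' (ea a) (eb b) := by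
    intro a b
    funext y
    by_cases hy : y ∈ A'
    · rw [glue_mem _ _ _ hy]
      show code (t y) _ _ = code (t y) _ _
      congr 1
      funext x
      exact glue_mem _ _ _ ((hA x.1).2 (by rw [x.2]; exact (hA'm y).1 hy))
    · rw [glue_not_mem _ _ _ hy]
      show code (t y) _ _ = code (t y) _ _
      congr 1
      funext x
      exact glue_not_mem _ _ _ fun hx => hy ((hA'm y).2 (by rw [← x.2]; exact (hA x.1).1 hx))
  have hdg : ∀ a b, dec s t code (glue A' (ea a) (eb b)) = glue A a b := fun a b => by
    rw [← hglue, dec_enc s t code hinj]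
  refine entropy_of_glue A A' ea eb (fun a a' e => ?_) (fun b b' e => ?_) Ω _ (fun a b => ?_)
    fun u w hno => ?_
  · have h := (hdg a fun _ => 0).symm.trans ((congrArg (fun v => dec s t code (glue A' v
      (eb fun _ => 0))) e).trans (hdg a' fun _ => 0))
    exact funext fun x => by simpa [glue, x.2] using congrFun h x.1
  · have h := (hdg (fun _ => 0) b).symm.trans ((congrArg (fun v => dec s t code (glue A'
      (ea fun _ => 0) v)) e).trans (hdg (fun _ => 0) b'))
    exact funext fun x => by simpa [glue, x.2] using congrFun h x.1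
  · rw [← hglue, encState, if_pos (anc_enc s t code hinj _), dec_enc s t code hinj]
  · rw [encState, if_neg]
    intro ha
    obtain ⟨⟨a, b⟩, hz⟩ := (splitConf A).surjective (dec s t code (glue A' u w))
    have e : glue A' (ea a) (eb b) = glue A' u w := by
      rw [← hglue, show glue A a b = dec s t code (glue A' u w) from hz]
      exact (eq_enc_of_anc s t code hinj _ ha).symm
    refine hno ⟨a, b, funext fun y => ?_, funext fun y => ?_⟩
    · simpa [glue, y.2] using congrFun e y.1
    · simpa [glue, y.2] using congrFun e y.1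

end Vale.Agent.P356
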