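import Vale.Agent.P356.Tile

/-!
Three encodings: a larger square, qubits, and range five.
-/

namespace Vale.Agent.P356

open Matrix Finset

variable {q : ℕ} [NeZero q]

/-- A square placed in the corner of a larger one. -/
theorem exists_pad {R : ℕ} {J J' Δ E : ℝ} {L L' : ℕ} (hLL : L ≤ L') (hJ : 0 ≤ J) (hΔ : 0 < Δ)
    (hJ' : (2 : ℝ) ^ ((2 * R + 1) ^ 2) * J + Δ ≤ J') {h : Finset (Site L) → Op q L}
    {Ω : Conf q L → ℂ} (A : Finset (Site L)) (hh : Admissible R J h)
    (hg : Gapped (hamOn h univ) E Δ Ω) :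
    ∃ (h' : Finset (Site L') → Op q L') (E' : ℝ) (Ω' : Conf q L' → ℂ)
      (A' : Finset (Site L')), Admissible R J' h' ∧ Gapped (hamOn h' univ) E' Δ Ω' ∧
      entropy A' Ω' = entropy A Ω ∧
      (edgeBoundary A').card ≤ (edgeBoundary A).card + 2 * L := by
  classical
  let s : Site L → Site L' := fun x => (x.1.castLE hLL, x.2.castLE hLL)
  have hs : Function.Injective s := fun x y e => by
    simp only [s, Prod.mk.injEq, Fin.castLE_inj] at e
    exact Prod.ext e.1 e.2
  have hd : ∀ x y, dist1 (s x) (s y) = dist1 x y := fun x y => rfl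
  let t : Site L' → Site L' := id
  let code : ∀ g, ({x // s x = g} → Fin q) → ({y // t y = g} → Fin q) :=
    fun g f _ => if hx : ∃ x, s x = g then f ⟨hx.choose, hx.choose_spec⟩ else 0
  have hinj : ∀ g, Function.Injective (code g) := by
    intro g f f' e
    funext x
    have hx : ∃ x, s x = g := ⟨x.1, x.2⟩
    have := congrFun e ⟨g, rfl⟩
    simp only [code, dif_pos hx] at this
    rw [show x = ⟨hx.choose, hx.choose_spec⟩ from Subtype.ext (hs (x.2.trans hx.choose_spec.symm))]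
    exact this
  let side : Site L' → Bool := fun g => decide (g ∈ A.image s)
  have hA : ∀ x, x ∈ A ↔ side (s x) = true := fun x => by
    simp only [side, decide_eq_true_eq]
    exact ⟨mem_image_of_mem s, fun h => by
      obtain ⟨x', hx', e⟩ := mem_image.1 h; exact hs e ▸ hx'⟩
  refine ⟨_, E, encState s t code Ω, univ.filter fun y => side (t y) = true,
    admissible_collect s t code hinj (fun x => ⟨s x, rfl⟩) hJ hΔ.le (W := 1) (R' := R) ?_
      (by rwa [one_mul]) ?_ hh,
    gapped_collect s t code hinj hΔ hh.herm hg, entropy_encState s t code hinj side A hA Ω, ?_⟩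
  · intro g
    exact card_le_one.2 fun x hx y hy =>
      hs ((mem_filter.1 hx).2.trans (mem_filter.1 hy).2.symm)
  · rintro y y' (rfl | ⟨x, x', rfl, rfl, hxx⟩)
    · simp [dist1, t]
    · exact hd x x' ▸ hxx
  · have hmem : ∀ y, y ∈ (univ.filter fun y => side (t y) = true) ↔ y ∈ A.image s := fun y => by
      simp [side, t]
    have hrim : ((univ : Finset (Site L' × Site L')).filter fun e =>
        dist1 e.1 e.2 = 1 ∧ e.1.1.1 < L ∧ e.1.2.1 < L ∧ (e.2.1.1 = L ∨ e.2.2.1 = L)).card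
          ≤ 2 * L := by
      refine le_trans (card_le_card_of_injOn
        (fun e => if e.2.1.1 = L then (0, e.2.2.1) else (1, e.2.1.1))
        (t := ({0, 1} : Finset ℕ) ×ˢ range L) ?_ ?_) (by simp)
      · intro e he
        obtain ⟨-, he, ha1, ha2, ha3⟩ := mem_filter.1 he
        unfold dist1 at he
        dsimp only
        split_ifs with hc
        · exact mem_product.2 ⟨by simp, mem_range.2 (by omega)⟩
        · exact mem_product.2 ⟨by simp, mem_range.2 (by omega)⟩
      · intro e he e' he' heq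
        obtain ⟨-, he, ha1, ha2, ha3⟩ := mem_filter.1 he
        obtain ⟨-, he', ha1', ha2', ha3'⟩ := mem_filter.1 he'
        unfold dist1 at he he'
        dsimp only at heq
        refine Prod.ext (Prod.ext (Fin.ext ?_) (Fin.ext ?_)) (Prod.ext (Fin.ext ?_) (Fin.ext ?_))
        all_goals
          split_ifs at heq <;> simp only [Prod.mk.injEq] at heq <;> omega
    refine (card_le_card (t := ((edgeBoundary A).image fun e => (s e.1, s e.2)) ∪
      (univ.filter fun e => dist1 e.1 e.2 = 1 ∧ e.1.1.1 < L ∧ e.1.2.1 < L ∧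
        (e.2.1.1 = L ∨ e.2.2.1 = L))) ?_).trans
      ((card_union_le _ _).trans (Nat.add_le_add card_image_le hrim))
    intro e he
    obtain ⟨hp, h1⟩ := mem_filter.1 he
    obtain ⟨ha, hb⟩ := mem_product.1 hp
    rw [mem_compl] at hb
    rw [hmem, mem_image] at ha
    obtain ⟨x, hx, hxe⟩ := ha
    by_cases hin : e.2.1.1 < L ∧ e.2.2.1 < L
    · refine mem_union_left _ (mem_image.2 ⟨(x, (⟨_, hin.1⟩, ⟨_, hin.2⟩)), ?_, ?_⟩)
      · simp only [edgeBoundary, mem_filter, mem_product, mem_compl]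
        refine ⟨⟨hx, fun h => hb ((hmem _).2 (mem_image.2 ⟨_, h, rfl⟩))⟩, ?_⟩
        rw [← hd, hxe]
        exact h1
      · exact Prod.ext hxe rfl
    · refine mem_union_right _ (mem_filter.2 ⟨mem_univ _, h1, ?_⟩)
      have hx1 : e.1.1.1 = x.1.1 := by rw [← hxe]; rfl
      have hx2 : e.1.2.1 = x.2.1 := by rw [← hxe]; rfl
      have := x.1.2
      have := x.2.2
      unfold dist1 at h1
      omega

theorem sub_block_le (q R i j : ℕ) (h : ((i / q : ℕ) : ℤ) - ((j / q : ℕ) : ℤ) ≤ R) (hq : 0 < q) :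
    (i : ℤ) - j ≤ q * (R + 1) := by
  have h1 : (i : ℤ) = q * ((i / q : ℕ) : ℤ) + ((i % q : ℕ) : ℤ) := by
    exact_mod_cast (Nat.div_add_mod i q).symm
  have h2 : (j : ℤ) = q * ((j / q : ℕ) : ℤ) + ((j % q : ℕ) : ℤ) := by
    exact_mod_cast (Nat.div_add_mod j q).symm
  have h3 : ((i % q : ℕ) : ℤ) < q := by exact_mod_cast Nat.mod_lt i hq
  have h4 := mul_le_mul_of_nonneg_left h (Int.natCast_nonneg q)
  nlinarith [Int.natCast_nonneg (j % q)]

/-- Every site replaced by a block of qubits. -/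
theorem exists_qubit {R : ℕ} {J J' Δ E : ℝ} {L : ℕ} (hq : 2 ≤ q) (hL : 2 ≤ L) (hJ : 0 ≤ J)
    (hΔ : 0 < Δ) (hJ' : (2 : ℝ) ^ ((2 * R + 1) ^ 2) * J + Δ ≤ J') {h : Finset (Site L) → Op q L}
    {Ω : Conf q L → ℂ} (A : Finset (Site L)) (hh : Admissible R J h)
    (hg : Gapped (hamOn h univ) E Δ Ω) :
    ∃ (L' : ℕ) (h' : Finset (Site L') → Op 2 L') (E' : ℝ) (Ω' : Conf 2 L' → ℂ)
      (A' : Finset (Site L')), 2 ≤ L' ∧ Admissible (2 * (q * (R + 1))) J' h' ∧
      Gapped (hamOn h' univ) E' Δ Ω' ∧ entropy A' Ω' = entropy A Ω ∧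
      (edgeBoundary A').card ≤ q ^ 4 * (edgeBoundary A).card := by
  classical
  have hq0 : 0 < q := by omega
  let t : Site (L * q) → Site L := fun y =>
    (⟨y.1.1 / q, Nat.div_lt_of_lt_mul (y.1.2.trans_eq (mul_comm _ _))⟩,
     ⟨y.2.1 / q, Nat.div_lt_of_lt_mul (y.2.2.trans_eq (mul_comm _ _))⟩)
  let code : ∀ g, ({x // id x = g} → Fin q) → ({y // t y = g} → Fin 2) := fun g f y =>
    if y.1.1.1 % q = (f ⟨g, rfl⟩).1 ∧ y.1.2.1 % q = 0 then 1 else 0
  have hlt : ∀ (a : Fin L) (b : ℕ), b < q → q * a.1 + b < L * q := fun a b hb =>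
    calc q * a.1 + b < q * a.1 + q := by omega
      _ = q * (a.1 + 1) := by ring
      _ ≤ q * L := Nat.mul_le_mul_left q a.2
      _ = L * q := mul_comm _ _
  have hpt : ∀ (a : Fin L) (b : ℕ), b < q → (q * a.1 + b) / q = a.1 ∧ (q * a.1 + b) % q = b :=
    fun a b hb => ⟨by rw [Nat.mul_add_div hq0, Nat.div_eq_of_lt hb, add_zero],
      by rw [Nat.mul_add_mod, Nat.mod_eq_of_lt hb]⟩
  have hex : ∀ (g : Site L) (a : Fin q), ∃ y, t y = g ∧ y.1.1 % q = a.1 ∧ y.2.1 % q = 0 :=
    fun g a => ⟨(⟨_, hlt g.1 a.1 a.2⟩, ⟨_, hlt g.2 0 hq0⟩),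
      Prod.ext (Fin.ext (hpt g.1 a.1 a.2).1) (Fin.ext (hpt g.2 0 hq0).1),
      (hpt g.1 a.1 a.2).2, (hpt g.2 0 hq0).2⟩
  have hinj : ∀ g, Function.Injective (code g) := by
    intro g f f' e
    obtain ⟨y, hy, h1, h2⟩ := hex g (f ⟨g, rfl⟩)
    have := congrFun e ⟨y, hy⟩
    simp only [code, h1, h2, and_true, if_true] at this
    split_ifs at this with hc
    · funext ⟨x, hx⟩
      subst hx
      exact Fin.ext hc
    · simp at this
  let side : Site L → Bool := fun g => decide (g ∈ A)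
  refine ⟨L * q, _, E, encState id t code Ω, univ.filter fun y => side (t y) = true, ?_,
    admissible_collect id t code hinj (fun x => ⟨_, (hex x ⟨0, hq0⟩).choose_spec.1⟩) hJ hΔ.le
      (W := 1) (R' := 2 * (q * (R + 1))) ?_ (by rwa [one_mul]) ?_ hh,
    gapped_collect id t code hinj hΔ hh.herm hg,
    entropy_encState id t code hinj side A (fun x => by simp [side]) Ω, ?_⟩
  · nlinarith
  · intro g
    exact card_le_one.2 fun x hx y hy =>
      ((mem_filter.1 hx).2.trans (mem_filter.1 hy).2.symm)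
  · intro y y' hyy
    have hdist : dist1 (t y) (t y') ≤ R := by
      rcases hyy with e | ⟨x, x', e, e', hxx⟩
      · rw [e]; simp [dist1]
      · rw [← e, ← e']; exact hxx
    simp only [dist1, t] at hdist
    have key := fun i j h => sub_block_le q R i j h hq0
    have a1 := key y.1.1 y'.1.1 (by omega)
    have a2 := key y'.1.1 y.1.1 (by omega)
    have a3 := key y.2.1 y'.2.1 (by omega)
    have a4 := key y'.2.1 y.2.1 (by omega)
    have hc : ((q * (R + 1) : ℕ) : ℤ) = (q : ℤ) * ((R : ℤ) + 1) := by push_cast; ring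
    rw [← hc] at a1 a2 a3 a4
    unfold dist1
    omega
  · refine (card_le_card_of_injOn (fun e => ((t e.1, t e.2),
      ((⟨e.1.1.1 % q, Nat.mod_lt _ hq0⟩ : Fin q), (⟨e.1.2.1 % q, Nat.mod_lt _ hq0⟩ : Fin q)),
      ((⟨e.2.1.1 % q, Nat.mod_lt _ hq0⟩ : Fin q), (⟨e.2.2.1 % q, Nat.mod_lt _ hq0⟩ : Fin q))))
      (t := edgeBoundary A ×ˢ (univ : Finset ((Fin q × Fin q) × (Fin q × Fin q)))) ?_ ?_).trans ?_
    · intro e he
      simp only [edgeBoundary, coe_filter, Set.mem_ofPred_eq, mem_product, mem_compl, mem_filter,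
        mem_univ, true_and, side, decide_eq_true_eq] at he
      obtain ⟨⟨ha, hb⟩, h1⟩ := he
      simp only [mem_coe, mem_product, mem_univ, and_true, edgeBoundary, mem_filter, mem_compl]
      refine ⟨⟨ha, hb⟩, ?_⟩
      have hne : t e.1 ≠ t e.2 := fun h => hb (h ▸ ha)
      have hle : ∀ i j : ℕ, ((i : ℤ) - j).natAbs ≤ 1 → ((i / q : ℕ) : ℤ) - ((j / q : ℕ) : ℤ) ≤ 1 ∧
          ((j / q : ℕ) : ℤ) - ((i / q : ℕ) : ℤ) ≤ 1 ∧ (i = j → i / q = j / q) := by
        intro i j hij
        have p1 := Nat.div_le_div_right (c := q) (show i ≤ j + q by omega)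
        have p2 := Nat.div_le_div_right (c := q) (show j ≤ i + q by omega)
        rw [Nat.add_div_right _ hq0] at p1 p2
        exact ⟨by omega, by omega, fun h => by rw [h]⟩
      unfold dist1 at h1 ⊢
      have b1 := hle e.1.1.1 e.2.1.1 (by omega)
      have b2 := hle e.1.2.1 e.2.2.1 (by omega)
      have hne' : ¬ (e.1.1.1 / q = e.2.1.1 / q ∧ e.1.2.1 / q = e.2.2.1 / q) := fun h =>
        hne (Prod.ext (Fin.ext h.1) (Fin.ext h.2))
      simp only [t]
      omega
    · intro e _ e' _ heq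
      simp only [t, Prod.mk.injEq, Fin.mk.injEq] at heq
      obtain ⟨⟨⟨a1, a2⟩, a3, a4⟩, ⟨c1, c2⟩, c3, c4⟩ := heq
      have back : ∀ i j : ℕ, i / q = j / q → i % q = j % q → i = j := fun i j h h' => by
        rw [← Nat.div_add_mod i q, ← Nat.div_add_mod j q, h, h']
      exact Prod.ext (Prod.ext (Fin.ext (back _ _ a1 c1)) (Fin.ext (back _ _ a2 c2)))
        (Prod.ext (Fin.ext (back _ _ a3 c3)) (Fin.ext (back _ _ a4 c4)))
    · simp only [card_product, card_univ, Fintype.card_prod, Fintype.card_fin]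
      exact le_of_eq (by ring)

/-- Blocks of sites replaced by two sites, one for each side of the cut. -/
theorem exists_range {R : ℕ} {J J' Δ E : ℝ} {L : ℕ} (hL : 2 ≤ L) (hJ : 0 ≤ J) (hΔ : 0 < Δ)
    (hJ' : (2 : ℝ) ^ ((R + 1) ^ 2 * (2 * R + 1) ^ 2) * J + Δ ≤ J') {h : Finset (Site L) → Op q L}
    {Ω : Conf q L → ℂ} (A : Finset (Site L)) (hh : Admissible R J h)
    (hg : Gapped (hamOn h univ) E Δ Ω) :
    ∃ (L' : ℕ) (h' : Finset (Site L') → Op (q ^ ((R + 1) ^ 2)) L') (E' : ℝ)
      (Ω' : Conf (q ^ ((R + 1) ^ 2)) L' → ℂ) (A' : Finset (Site L')), 2 ≤ L' ∧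
      Admissible 5 J' h' ∧ Gapped (hamOn h' univ) E' Δ Ω' ∧ entropy A' Ω' = entropy A Ω ∧
      (edgeBoundary A').card ≤ 39 ^ 4 * (edgeBoundary A).card := by
  classical
  set w := R + 1 with hw
  have hw0 : 0 < w := by omega
  set n := (L - 1) / w + 1 with hn
  have hblk : ∀ i : ℕ, i < L → i / w < n := fun i hi =>
    Nat.lt_succ_of_le (Nat.div_le_div_right (by omega))
  -- the block of a host site meets the square
  have hback : ∀ b : ℕ, b < n → w * b < L := fun b hb => by
    have := Nat.mul_le_mul_left w (Nat.le_of_lt_succ hb)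
    have := Nat.mul_div_le (L - 1) w
    omega
  let blk : Site L → ℕ × ℕ := fun x => (x.1.1 / w, x.2.1 / w)
  let hostBlk : Site (2 * n) → ℕ × ℕ := fun g => (g.1.1 / 2, g.2.1 / 2)
  let meetsA : ℕ × ℕ → Prop := fun b => ∃ x ∈ A, blk x = b
  let meetsC : ℕ × ℕ → Prop := fun b => ∃ x, x ∉ A ∧ blk x = b
  let bit : Site L → ℕ := fun x => if x ∉ A ∧ meetsA (blk x) then 1 else 0
  let s : Site L → Site (2 * n) := fun x =>
    (⟨2 * (x.1.1 / w) + bit x, by
        have := hblk _ x.1.2; simp only [bit]; split_ifs <;> omega⟩,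
     ⟨2 * (x.2.1 / w), by have := hblk _ x.2.2; omega⟩)
  let t : Site (2 * n) → Site (2 * n) := id
  let side : Site (2 * n) → Bool := fun g =>
    decide (meetsA (hostBlk g) ∧ (meetsC (hostBlk g) → g.1.1 % 2 = 0))
  have hsb : ∀ x, hostBlk (s x) = blk x := fun x => by
    simp only [hostBlk, s, blk, bit]
    split_ifs <;> simp <;> omega
  have hA : ∀ x, x ∈ A ↔ side (s x) = true := by
    intro x
    simp only [side, decide_eq_true_eq, hsb]
    by_cases hx : x ∈ A
    · simp only [hx, true_iff]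
      exact ⟨⟨x, hx, rfl⟩, fun _ => by simp [s, bit, hx]⟩
    · simp only [hx, false_iff]
      rintro ⟨hm, hp⟩
      have := hp ⟨x, hx, rfl⟩
      simp [s, bit, hx, hm] at this
  have hfib : ∀ g, (univ.filter fun x => s x = g).card ≤ w ^ 2 := by
    intro g
    refine (card_le_card_of_injOn (fun x : Site L => (x.1.1 % w, x.2.1 % w))
      (t := range w ×ˢ range w) ?_ ?_).trans (by simp [sq])
    · intro x _; simp [Nat.mod_lt _ hw0]
    · intro x hx y hy e
      simp only [coe_filter, Set.mem_ofPred_eq, mem_univ, true_and] at hx hy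
      have hb : blk x = blk y := by rw [← hsb, ← hsb, hx, hy]
      simp only [blk, Prod.mk.injEq] at hb e
      exact Prod.ext (Fin.ext (by rw [← Nat.div_add_mod x.1.1 w, ← Nat.div_add_mod y.1.1 w,
        hb.1, e.1])) (Fin.ext (by rw [← Nat.div_add_mod x.2.1 w, ← Nat.div_add_mod y.2.1 w,
        hb.2, e.2]))
  have hex : ∀ g, Nonempty (({x // s x = g} → Fin q) ↪ ({y // t y = g} → Fin (q ^ (w ^ 2)))) := by
    intro g
    refine Function.Embedding.nonempty_of_card_le ?_
    simp only [Fintype.card_fun, Fintype.card_fin, Fintype.card_subtype]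
    rw [show (univ.filter fun y => t y = g).card = 1 by simp [t, filter_eq'], pow_one]
    exact Nat.pow_le_pow_right (Nat.pos_of_ne_zero (NeZero.ne q)) (hfib g)
  let code := fun g => ⇑(hex g).some
  have hinj : ∀ g, Function.Injective (code g) := fun g => (hex g).some.injective
  have hn1 : 1 ≤ n := by rw [hn]; exact Nat.le_add_left 1 _
  refine ⟨2 * n, _, E, encState s t code Ω, univ.filter fun y => side (t y) = true, by omega,
    admissible_collect s t code hinj (fun x => ⟨s x, rfl⟩) hJ hΔ.le (W := w ^ 2) (R' := 5) hfib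
      hJ' ?_ hh,
    gapped_collect s t code hinj hΔ hh.herm hg, entropy_encState s t code hinj side A hA Ω, ?_⟩
  · rintro y y' (rfl | ⟨x, x', rfl, rfl, hxx⟩)
    · simp [dist1, t]
    · unfold dist1 at hxx
      have hb : ∀ i j : ℕ, i ≤ j + w → i / w ≤ j / w + 1 := fun i j hij =>
        (Nat.div_le_div_right hij).trans (by rw [Nat.add_div_right _ hw0])
      have a1 := hb x.1.1 x'.1.1 (by omega)
      have a2 := hb x'.1.1 x.1.1 (by omega)
      have a3 := hb x.2.1 x'.2.1 (by omega)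
      have a4 := hb x'.2.1 x.2.1 (by omega)
      simp only [dist1, s, bit]
      split_ifs <;> omega
  · let near : Site L → Finset (Site (2 * n)) := fun u => univ.filter fun g =>
      ((g.1.1 / 2 : ℕ) : ℤ) - (u.1.1 / w : ℕ) ≤ 6 ∧ ((u.1.1 / w : ℕ) : ℤ) - (g.1.1 / 2 : ℕ) ≤ 6 ∧
      ((g.2.1 / 2 : ℕ) : ℤ) - (u.2.1 / w : ℕ) ≤ 6 ∧ ((u.2.1 / w : ℕ) : ℤ) - (g.2.1 / 2 : ℕ) ≤ 6
    have hnear : ∀ u, (near u).card ≤ 39 ^ 2 := by
      intro u
      refine (card_le_card_of_injOn (fun g : Site (2 * n) =>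
        (g.1.1 + 19 - 2 * (u.1.1 / w), g.2.1 + 19 - 2 * (u.2.1 / w)))
        (t := range 39 ×ˢ range 39) ?_ ?_).trans (by simp)
      · intro g hg
        simp only [near, coe_filter, Set.mem_ofPred_eq, mem_univ, true_and] at hg
        simp only [coe_product, coe_range, Set.mem_prod, Set.mem_Iio]
        omega
      · intro g hg g' hg' e
        simp only [near, coe_filter, Set.mem_ofPred_eq, mem_univ, true_and] at hg hg'
        simp only [Prod.mk.injEq] at e
        exact Prod.ext (Fin.ext (by omega)) (Fin.ext (by omega))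
    refine (card_le_card (t := (edgeBoundary A).biUnion fun e => near e.1 ×ˢ near e.1) ?_).trans
      (card_biUnion_le.trans ((sum_le_card_nsmul _ _ (39 ^ 4) fun e _ => ?_).trans
        (le_of_eq (by rw [smul_eq_mul, mul_comm]))))
    · intro e he
      simp only [edgeBoundary, mem_filter, mem_product, mem_compl, mem_univ, true_and, side, t, id,
        decide_eq_true_eq] at he
      obtain ⟨⟨⟨⟨x, hxA, hxb⟩, -⟩, hb⟩, h1⟩ := he
      obtain ⟨x', hx'A, hx'b⟩ : meetsC (hostBlk e.2) := by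
        by_contra hno
        -- a block inside `A` lies on one side
        let i1 : Fin L := ⟨w * (e.2.1.1 / 2), hback _ (by have := e.2.1.2; omega)⟩
        let i2 : Fin L := ⟨w * (e.2.2.1 / 2), hback _ (by have := e.2.2.2; omega)⟩
        have hi : blk (i1, i2) = hostBlk e.2 := by
          simp [blk, hostBlk, i1, i2, Nat.mul_div_cancel_left _ hw0]
        refine hb ⟨⟨(i1, i2), ?_, hi⟩, fun hc => absurd hc hno⟩
        by_contra hi'
        exact hno ⟨_, hi', hi⟩
      obtain ⟨d, hd, hdd⟩ := exists_edge A _ x x' hxA hx'A rfl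
      simp only [blk, hostBlk, Prod.mk.injEq] at hxb hx'b
      unfold dist1 at h1 hdd
      have p1 := Nat.div_add_mod x.1.1 w
      have p2 := Nat.div_add_mod x.2.1 w
      have p3 := Nat.div_add_mod x'.1.1 w
      have p4 := Nat.div_add_mod x'.2.1 w
      have m1 := Nat.mod_lt x.1.1 hw0
      have m2 := Nat.mod_lt x.2.1 hw0
      have m3 := Nat.mod_lt x'.1.1 hw0
      have m4 := Nat.mod_lt x'.2.1 hw0
      have hdist : ((x.1 : ℤ) - x'.1).natAbs + ((x.2 : ℤ) - x'.2).natAbs ≤ 4 * w := by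
        have q1 : x.1.1 / w ≤ x'.1.1 / w + 1 := by omega
        have q2 : x'.1.1 / w ≤ x.1.1 / w + 1 := by omega
        have q3 : x.2.1 / w ≤ x'.2.1 / w + 1 := by omega
        have q4 : x'.2.1 / w ≤ x.2.1 / w + 1 := by omega
        have r1 := Nat.mul_le_mul_left w q1
        have r2 := Nat.mul_le_mul_left w q2
        have r3 := Nat.mul_le_mul_left w q3
        have r4 := Nat.mul_le_mul_left w q4
        rw [Nat.mul_add, Nat.mul_one] at r1 r2 r3 r4
        omega
      have hclose : ∀ i j : ℕ, i ≤ j + 4 * w → i / w ≤ j / w + 4 := fun i j hij =>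
        (Nat.div_le_div_right hij).trans (by rw [Nat.add_mul_div_right _ _ hw0])
      have c1 := hclose d.1.1.1 x.1.1 (by omega)
      have c2 := hclose x.1.1 d.1.1.1 (by omega)
      have c3 := hclose d.1.2.1 x.2.1 (by omega)
      have c4 := hclose x.2.1 d.1.2.1 (by omega)
      refine mem_biUnion.2 ⟨d, hd, ?_⟩
      simp only [mem_product, near, mem_filter, mem_univ, true_and]
      omega
    · rw [card_product]
      calc _ ≤ 39 ^ 2 * 39 ^ 2 := Nat.mul_le_mul (hnear _) (hnear _)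
        _ = 39 ^ 4 := by norm_num

end Vale.Agent.P356
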