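import Vale.Agent.P356.Embed

/-!
Recognising local operators, and collecting local operators into an interaction.
-/

namespace Vale.Agent.P356

open Matrix Finset

variable {q L : ℕ}

/-- A local operator vanishes between configurations that differ outside and does not depend on
their common values there. -/
theorem actsOn_of [NeZero q] (X : Finset (Site L)) (M : Op q L)
    (h0 : ∀ σ τ, ∀ x, x ∉ X → σ x ≠ τ x → M σ τ = 0)
    (hinv : ∀ σ τ σ' τ', (∀ x, x ∉ X → σ x = τ x) → (∀ x, x ∉ X → σ' x = τ' x) →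
      (∀ x ∈ X, σ x = σ' x) → (∀ x ∈ X, τ x = τ' x) → M σ τ = M σ' τ') :
    ActsOn X M := by
  classical
  let e : ({x // x ∈ X} → Fin q) → Conf q L := fun a x => if hx : x ∈ X then a ⟨x, hx⟩ else 0
  refine ⟨Matrix.of fun a b => M (e a) (e b), fun σ τ => ?_⟩
  by_cases h : ∀ x, x ∉ X → σ x = τ x
  · rw [if_pos h, of_apply]
    refine hinv _ _ _ _ h (fun x hx => ?_) (fun x hx => ?_) fun x hx => ?_ <;> simp [e, hx]
  · rw [if_neg h]
    push Not at h
    obtain ⟨x, hx, hne⟩ := h
    exact h0 σ τ x hx hne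

theorem ActsOn.eq_zero {X : Finset (Site L)} {M : Op q L} (h : ActsOn X M) (σ τ : Conf q L)
    {x : Site L} (hx : x ∉ X) (hne : σ x ≠ τ x) : M σ τ = 0 := by
  obtain ⟨m, hm⟩ := h
  rw [hm, if_neg]
  exact fun hall => hne (hall x hx)

theorem ActsOn.congr {X : Finset (Site L)} {M : Op q L} (h : ActsOn X M) {σ τ σ' τ' : Conf q L}
    (h1 : ∀ x, x ∉ X → σ x = τ x) (h2 : ∀ x, x ∉ X → σ' x = τ' x)
    (h3 : ∀ x ∈ X, σ x = σ' x) (h4 : ∀ x ∈ X, τ x = τ' x) : M σ τ = M σ' τ' := by
  obtain ⟨m, hm⟩ := h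
  rw [hm, hm, if_pos h1, if_pos h2]
  congr 1 <;> funext x
  · exact h3 x.1 x.2
  · exact h4 x.1 x.2

/-- The interaction collecting a family of operators by their supports. -/
noncomputable def collect {ι : Type*} [Fintype ι] (supp : ι → Finset (Site L)) (M : ι → Op q L) :
    Finset (Site L) → Op q L := fun X => ∑ i ∈ univ.filter (fun i => supp i = X), M i

theorem hamOn_collect {ι : Type*} [Fintype ι] (supp : ι → Finset (Site L)) (M : ι → Op q L) :
    hamOn (collect supp M) Finset.univ = ∑ i, M i := by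
  classical
  rw [hamOn, Finset.powerset_univ]
  exact Finset.sum_fiberwise univ supp M

theorem isHermitian_sum {n ι : Type*} (s : Finset ι) (f : ι → Matrix n n ℂ)
    (h : ∀ i ∈ s, (f i).IsHermitian) : (∑ i ∈ s, f i).IsHermitian := by
  classical
  exact Finset.sum_induction f _ (fun _ _ => Matrix.IsHermitian.add) Matrix.isHermitian_zero h

/-- The ground energy bounds the quadratic form from below. -/
theorem Gapped.le_quad {n : Type*} [Fintype n] [DecidableEq n] {H : Matrix n n ℂ} {E Δ : ℝ}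
    {Ω : n → ℂ} (hH : H.IsHermitian) (hΔ : 0 < Δ) (hg : Gapped H E Δ Ω) (v : n → ℂ) :
    E * nsq v ≤ (star v ⬝ᵥ (H *ᵥ v)).re := by
  obtain ⟨U, d, i₀, z, hU, hdec, hd0, hother, -⟩ := hg.exists_diag hH hΔ
  have hU' : U * Uᴴ = 1 := mul_eq_one_comm.1 hU
  set u := Uᴴ *ᵥ v
  have hvu : v = U *ᵥ u := by rw [mulVec_mulVec, hU', one_mulVec]
  conv_rhs => rw [hvu, hdec]
  rw [← mulVec_mulVec, mulVec_mulVec _ Uᴴ U, hU, one_mulVec, ← mulVec_mulVec, star_mulVec,
    ← dotProduct_mulVec, mulVec_mulVec _ Uᴴ U, hU, one_mulVec, hvu, nsq_unitary U hU, nsq, mul_sum]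
  simp only [dotProduct, mulVec_diagonal, Complex.re_sum, Pi.star_apply]
  refine sum_le_sum fun i _ => ?_
  have hd : E ≤ d i := by
    by_cases h : i = i₀
    · rw [h, hd0]
    · linarith [hother i h]
  refine (mul_le_mul_of_nonneg_right hd (Complex.normSq_nonneg _)).trans_eq ?_
  simp [Complex.normSq_apply]
  ring

end Vale.Agent.P356
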