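import Vale.Agent.P356.Layouts

/-!
The area law from its asymptotic weakening for qubits, or for range five.
-/

namespace Vale.Agent.P356

open Matrix Finset

theorem AreaLawAt.weak {q R : ℕ} {J Δ : ℝ} (h : AreaLawAt q R J Δ) : WeakAreaLawAt q R J Δ := by
  obtain ⟨C, hC⟩ := h
  refine ⟨C, fun ε hε N => ⟨max N 2, le_max_left _ _, fun h E Ω A hh hg => ?_⟩⟩
  exact (hC _ (le_max_right _ _) h E Ω A hh hg).trans
    (le_add_of_nonneg_right (mul_nonneg hε.le (sq_nonneg _)))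

/-- Rescaling the Hamiltonian. -/
theorem weakAreaLawAt_scale {q R : ℕ} {J Δ : ℝ} (hJ : 0 < J)
    (h : WeakAreaLawAt q R 1 (Δ / J)) : WeakAreaLawAt q R J Δ := by
  obtain ⟨C, hC⟩ := h
  refine ⟨C, fun ε hε N => ?_⟩
  obtain ⟨L, hN, hL⟩ := hC ε hε N
  refine ⟨L, hN, fun h E Ω A hh hg => ?_⟩
  set c : ℂ := ((J⁻¹ : ℝ) : ℂ) with hc
  refine hL (fun X => c • h X) (E / J) Ω A
    ⟨fun X => ?_, fun X => (hh.acts X).smul c,
      fun X hX => hh.range X fun h0 => hX (by rw [h0, smul_zero]),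
      by rw [hh.empty, smul_zero], fun X v => ?_⟩ ?_
  · rw [Matrix.IsHermitian, conjTranspose_smul, (hh.herm X).eq]
    simp [hc]
  · have h1 := hh.norm X v
    have e : nsq ((c • h X) *ᵥ v) = (J⁻¹) ^ 2 * nsq (h X *ᵥ v) := by
      simp [smul_mulVec, nsq, Finset.mul_sum, hc, Complex.normSq_mul, sq]
    rw [e, one_pow, one_mul]
    calc (J⁻¹) ^ 2 * nsq (h X *ᵥ v) ≤ (J⁻¹) ^ 2 * (J ^ 2 * nsq v) :=
          mul_le_mul_of_nonneg_left h1 (sq_nonneg _)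
      _ = nsq v := by field_simp
  · obtain ⟨hn, hev, hgap⟩ := hg
    have hH : hamOn (fun X => c • h X) univ = c • hamOn h univ := by
      rw [hamOn, hamOn, Finset.smul_sum]
    refine ⟨hn, ?_, fun v hv => ?_⟩
    · rw [hH, smul_mulVec, hev, smul_smul]
      congr 1
      rw [hc]; push_cast; ring
    · rw [hH, smul_mulVec, dotProduct_smul, smul_eq_mul, hc, Complex.re_ofReal_mul]
      have := mul_le_mul_of_nonneg_left (hgap v hv) (inv_nonneg.2 hJ.le)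
      calc Δ / J * nsq v = J⁻¹ * (Δ * nsq v) := by ring
        _ ≤ _ := this
        _ = _ := by ring

/-- Amplification: an error `o(L²)` is harmless. -/
theorem areaLawAt_of_weak {q R : ℕ} [NeZero q] {J J' Δ : ℝ} (hJ : 0 ≤ J) (hΔ : 0 < Δ)
    (hJ' : (2 : ℝ) ^ ((2 * R + 1) ^ 2) * J + Δ ≤ J') (h : WeakAreaLawAt q R J' Δ) :
    AreaLawAt q R J Δ := by
  obtain ⟨C₀, hC₀⟩ := h
  refine ⟨max C₀ 0, fun L hL h E Ω A hh hg => le_of_forall_pos_le_add fun δ hδ => ?_⟩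
  set C := max C₀ 0
  have hC : 0 ≤ C := le_max_right _ _
  have hLpos : (0 : ℝ) < L := by exact_mod_cast (by omega : 0 < L)
  set m₀ := ⌈8 * C * L / δ⌉₊ + 1
  set ε := δ / (8 * (L : ℝ) ^ 2) with hε
  obtain ⟨L', hN, hL'⟩ := hC₀ ε (by positivity) (m₀ * L)
  set m := L' / L with hm
  have hm0 : m₀ ≤ m := (Nat.le_div_iff_mul_le (by omega)).2 hN
  have hmL : m * L ≤ L' := Nat.div_mul_le_self _ _
  have hL'2 : L' ≤ 2 * m * L := by
    have h1 := Nat.div_add_mod L' L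
    have h2 := Nat.mod_lt L' (show 0 < L by omega)
    rw [← hm] at h1
    have h3 : L * 1 ≤ L * m := Nat.mul_le_mul_left L (by omega)
    nlinarith
  obtain ⟨h₁, E₁, Ω₁, A₁, hh₁, hg₁, hS₁, hb₁⟩ := exists_tile hJ hΔ A hh hg m
  obtain ⟨h₂, E₂, Ω₂, A₂, hh₂, hg₂, hS₂, hb₂⟩ := exists_pad hmL hJ hΔ hJ' A₁ hh₁ hg₁
  have key := hL' h₂ E₂ Ω₂ A₂ hh₂ hg₂
  rw [hS₂, hS₁] at key
  have hb : ((edgeBoundary A₂).card : ℝ)
      ≤ (m : ℝ) ^ 2 * (edgeBoundary A).card + 2 * ((m : ℝ) * L) := by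
    exact_mod_cast hb₂.trans (Nat.add_le_add_right hb₁ _)
  have hL'r : (L' : ℝ) ≤ 2 * m * L := by exact_mod_cast hL'2
  have hm1 : (1 : ℝ) ≤ m := by exact_mod_cast (by omega : 1 ≤ m)
  have hmbig : 8 * C * L ≤ δ * m := by
    have h1 : 8 * C * L / δ ≤ (m₀ : ℝ) := by
      refine (Nat.le_ceil _).trans ?_
      exact_mod_cast Nat.le_succ _
    have h2 : (m₀ : ℝ) ≤ m := by exact_mod_cast hm0
    rw [← div_le_iff₀' hδ]
    linarith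
  have k1 : C₀ * ((edgeBoundary A₂).card : ℝ)
      ≤ C * ((m : ℝ) ^ 2 * (edgeBoundary A).card + 2 * ((m : ℝ) * L)) :=
    (mul_le_mul_of_nonneg_right (le_max_left _ _) (Nat.cast_nonneg _)).trans
      (mul_le_mul_of_nonneg_left hb hC)
  have k2 : ε * (L' : ℝ) ^ 2 ≤ δ / 2 * (m : ℝ) ^ 2 := by
    calc ε * (L' : ℝ) ^ 2 ≤ ε * (2 * m * L) ^ 2 :=
          mul_le_mul_of_nonneg_left (pow_le_pow_left₀ (Nat.cast_nonneg _) hL'r 2) (by positivity)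
      _ = δ / 2 * (m : ℝ) ^ 2 := by rw [hε]; field_simp; ring
  have k3 : C * (2 * ((m : ℝ) * L)) ≤ δ / 2 * (m : ℝ) ^ 2 := by
    nlinarith [mul_le_mul_of_nonneg_right hmbig (show (0 : ℝ) ≤ m by linarith)]
  have : (m : ℝ) ^ 2 * entropy A Ω ≤ (m : ℝ) ^ 2 * (C * (edgeBoundary A).card + δ) := by
    nlinarith
  exact le_of_mul_le_mul_left this (by positivity)

theorem areaLawAt_of_qubit {q R : ℕ} [NeZero q] {J J' Δ : ℝ} (hq : 2 ≤ q) (hJ : 0 ≤ J)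
    (hΔ : 0 < Δ) (hJ' : (2 : ℝ) ^ ((2 * R + 1) ^ 2) * J + Δ ≤ J')
    (h : AreaLawAt 2 (2 * (q * (R + 1))) J' Δ) : AreaLawAt q R J Δ := by
  obtain ⟨C, hC⟩ := h
  refine ⟨max C 0 * (q : ℝ) ^ 4, fun L hL h E Ω A hh hg => ?_⟩
  obtain ⟨L', h', E', Ω', A', hL', hh', hg', hS, hb⟩ := exists_qubit hq hL hJ hΔ hJ' A hh hg
  rw [← hS, mul_assoc]
  refine (hC L' hL' h' E' Ω' A' hh' hg').trans ?_
  exact (mul_le_mul_of_nonneg_right (le_max_left _ _) (Nat.cast_nonneg _)).trans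
    (mul_le_mul_of_nonneg_left (by exact_mod_cast hb) (le_max_right _ _))

theorem areaLawAt_of_range {q R : ℕ} [NeZero q] {J J' Δ : ℝ} (hJ : 0 ≤ J)
    (hΔ : 0 < Δ) (hJ' : (2 : ℝ) ^ ((R + 1) ^ 2 * (2 * R + 1) ^ 2) * J + Δ ≤ J')
    (h : AreaLawAt (q ^ ((R + 1) ^ 2)) 5 J' Δ) : AreaLawAt q R J Δ := by
  obtain ⟨C, hC⟩ := h
  refine ⟨max C 0 * 39 ^ 4, fun L hL h E Ω A hh hg => ?_⟩
  obtain ⟨L', h', E', Ω', A', hL', hh', hg', hS, hb⟩ := exists_range hL hJ hΔ hJ' A hh hg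
  rw [← hS, mul_assoc]
  refine (hC L' hL' h' E' Ω' A' hh' hg').trans ?_
  exact (mul_le_mul_of_nonneg_right (le_max_left _ _) (Nat.cast_nonneg _)).trans
    (mul_le_mul_of_nonneg_left (by exact_mod_cast hb) (le_max_right _ _))

theorem areaLawAt_of_weak_unit {q R : ℕ} [NeZero q] {J Δ : ℝ} (hJ : 0 < J) (hΔ : 0 < Δ)
    (h : ∀ Δ' : ℝ, 0 < Δ' → WeakAreaLawAt q R 1 Δ') : AreaLawAt q R J Δ :=
  areaLawAt_of_weak hJ.le hΔ le_rfl
    (weakAreaLawAt_scale (by positivity) (h _ (by positivity)))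

theorem areaLaw_iff_qubit :
    AreaLaw ↔ ∀ (R : ℕ) (Δ : ℝ), 0 < Δ → WeakAreaLawAt 2 R 1 Δ := by
  refine ⟨fun h R Δ hΔ => (h 2 R 1 Δ le_rfl one_pos hΔ).weak, fun h q R J Δ hq hJ hΔ => ?_⟩
  have : NeZero q := ⟨by omega⟩
  exact areaLawAt_of_qubit hq hJ.le hΔ le_rfl (areaLawAt_of_weak_unit (by positivity) hΔ (h _))

theorem areaLaw_iff_range :
    AreaLaw ↔ ∀ (Q : ℕ) (Δ : ℝ), 2 ≤ Q → 0 < Δ → WeakAreaLawAt Q 5 1 Δ := by
  refine ⟨fun h Q Δ hQ hΔ => (h Q 5 1 Δ hQ one_pos hΔ).weak, fun h q R J Δ hq hJ hΔ => ?_⟩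
  have : NeZero q := ⟨by omega⟩
  have hQ : 2 ≤ q ^ ((R + 1) ^ 2) := hq.trans (Nat.le_self_pow (by positivity) q)
  exact areaLawAt_of_range hJ.le hΔ le_rfl
    (areaLawAt_of_weak_unit (by positivity) hΔ fun Δ' hΔ' => h _ Δ' hQ hΔ')

end Vale.Agent.P356
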