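import Vale.Agent.P356.Encode

/-!
Mirrored tiling of a gapped system: no nearest neighbour bond between two tiles is cut.
-/

namespace Vale.Agent.P356

open Matrix Finset

/-- The local coordinate, reflected in every second tile. -/
def mirror (L c i : ℕ) : ℕ := if c % 2 = 0 then i else L - 1 - i

theorem mirror_lt {L c i : ℕ} (h : i < L) : mirror L c i < L := by
  unfold mirror; split_ifs <;> omega

theorem mirror_mirror {L c i : ℕ} (h : i < L) : mirror L c (mirror L c i) = i := by
  unfold mirror; split_ifs <;> omega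

theorem mirror_adj {L : ℕ} (hL : 0 < L) (i j : ℕ) (h : ((i : ℤ) - j).natAbs = 1) :
    (i / L = j / L ∧ ((mirror L (i / L) (i % L) : ℤ) - mirror L (j / L) (j % L)).natAbs = 1) ∨
      mirror L (i / L) (i % L) = mirror L (j / L) (j % L) := by
  wlog hij : i < j generalizing i j
  · rcases this j i (by omega) (by omega) with ⟨a, b⟩ | b
    · exact Or.inl ⟨a.symm, by omega⟩
    · exact Or.inr b.symm
  obtain rfl : j = i + 1 := by omega
  have h1 := Nat.div_add_mod i L
  have h2 := Nat.mod_lt i hL
  by_cases hc : i % L + 1 < L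
  · left
    have hd : (i + 1) / L = i / L := by
      conv_lhs => rw [show i + 1 = L * (i / L) + (i % L + 1) by omega]
      rw [Nat.mul_add_div hL, Nat.div_eq_of_lt hc, add_zero]
    have hm : (i + 1) % L = i % L + 1 := by
      have := Nat.div_add_mod (i + 1) L
      rw [hd] at this; omega
    refine ⟨hd.symm, ?_⟩
    rw [hd, hm]
    unfold mirror
    split_ifs <;> omega
  · right
    have hd : (i + 1) / L = i / L + 1 := by
      conv_lhs => rw [show i + 1 = L * (i / L) + L by omega]
      rw [Nat.mul_add_div hL, Nat.div_self hL]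
    have hm : (i + 1) % L = 0 := by
      have := Nat.div_add_mod (i + 1) L
      rw [hd, Nat.mul_add] at this; omega
    rw [hd, hm]
    unfold mirror
    split_ifs <;> omega

variable {q L m : ℕ}

/-- One coordinate of a tiled square. -/
def splitAxis (L m : ℕ) : Fin (m * L) ≃ Fin m × Fin L where
  toFun i := (⟨i.1 / L, Nat.div_lt_of_lt_mul (i.2.trans_eq (mul_comm _ _))⟩,
    ⟨mirror L (i.1 / L) (i.1 % L), mirror_lt (Nat.mod_lt _ (Nat.pos_of_ne_zero fun h => by
      have := i.2; simp [h] at this))⟩)
  invFun p := ⟨p.1.1 * L + mirror L p.1.1 p.2.1, by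
    have := p.1.2; have := mirror_lt (L := L) (c := p.1.1) p.2.2
    calc p.1.1 * L + mirror L p.1.1 p.2.1 < p.1.1 * L + L := by omega
      _ = (p.1.1 + 1) * L := by ring
      _ ≤ m * L := Nat.mul_le_mul_right L (by omega)⟩
  left_inv i := by
    have hL : 0 < L := Nat.pos_of_ne_zero fun h => by
      have := i.2; simp [h] at this
    apply Fin.ext
    simp only [mirror_mirror (Nat.mod_lt _ hL)]
    rw [mul_comm]; exact Nat.div_add_mod _ _
  right_inv p := by
    have h := mirror_lt (L := L) (c := p.1.1) p.2.2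
    have hL : 0 < L := by omega
    have hd : (p.1.1 * L + mirror L p.1.1 p.2.1) / L = p.1.1 := by
      rw [mul_comm, Nat.mul_add_div hL, Nat.div_eq_of_lt h, add_zero]
    have hm : (p.1.1 * L + mirror L p.1.1 p.2.1) % L = mirror L p.1.1 p.2.1 := by
      rw [mul_comm, Nat.mul_add_mod, Nat.mod_eq_of_lt h]
    refine Prod.ext (Fin.ext ?_) (Fin.ext ?_)
    · exact hd
    · show mirror L _ _ = _
      simp only [hd, hm]
      exact mirror_mirror p.2.2

/-- The sites of the tiled square: a tile and a position in it. -/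
def splitSite (L m : ℕ) : Site (m * L) ≃ (Fin m × Fin m) × Site L :=
  ((splitAxis L m).prodCongr (splitAxis L m)).trans (Equiv.prodProdProdComm _ _ _ _)

/-- Configurations of the tiled square, tile by tile. -/
def cfgs (q L m : ℕ) : Conf q (m * L) ≃ (Fin m × Fin m → Conf q L) :=
  ((splitSite L m).arrowCongr (Equiv.refl _)).trans (Equiv.curry _ _ _)

theorem cfgs_apply (σ : Conf q (m * L)) (t : Fin m × Fin m) (x : Site L) :
    cfgs q L m σ t x = σ ((splitSite L m).symm (t, x)) := rfl

theorem cfgs_split (σ : Conf q (m * L)) (y : Site (m * L)) :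
    cfgs q L m σ (splitSite L m y).1 (splitSite L m y).2 = σ y := by
  rw [cfgs_apply, Prod.mk.eta, Equiv.symm_apply_apply]

theorem dist_tile (t : Fin m × Fin m) (x x' : Site L) :
    dist1 ((splitSite L m).symm (t, x)) ((splitSite L m).symm (t, x')) = dist1 x x' := by
  have hx : ∀ (c : Fin m) (a b : Fin L), (((splitAxis L m).symm (c, a) : ℕ) : ℤ) -
      ((splitAxis L m).symm (c, b) : ℕ) = (a : ℤ) - b ∨
      (((splitAxis L m).symm (c, a) : ℕ) : ℤ) -
      ((splitAxis L m).symm (c, b) : ℕ) = -((a : ℤ) - b) := by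
    intro c a b
    show ((c.1 * L + mirror L c.1 a.1 : ℕ) : ℤ) - (c.1 * L + mirror L c.1 b.1 : ℕ) = _ ∨
      ((c.1 * L + mirror L c.1 a.1 : ℕ) : ℤ) - (c.1 * L + mirror L c.1 b.1 : ℕ) = _
    unfold mirror
    split_ifs <;> omega
  have h1 := hx t.1 x.1 x'.1
  have h2 := hx t.2 x.2 x'.2
  show ((((splitAxis L m).symm (t.1, x.1) : ℕ) : ℤ) - ((splitAxis L m).symm (t.1, x'.1) : ℕ)).natAbs
    + ((((splitAxis L m).symm (t.2, x.2) : ℕ) : ℤ) -
      ((splitAxis L m).symm (t.2, x'.2) : ℕ)).natAbs = _
  unfold dist1
  omega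

/-- The region repeated in every tile. -/
def tileSet (m : ℕ) (A : Finset (Site L)) : Finset (Site (m * L)) :=
  univ.filter fun y => (splitSite L m y).2 ∈ A

theorem mem_tileSet {A : Finset (Site L)} {y : Site (m * L)} :
    y ∈ tileSet m A ↔ (splitSite L m y).2 ∈ A := by simp [tileSet]

theorem adj_tile (y y' : Site (m * L)) (h : dist1 y y' = 1) :
    ((splitSite L m y).1 = (splitSite L m y').1 ∧
      dist1 (splitSite L m y).2 (splitSite L m y').2 = 1) ∨
      (splitSite L m y).2 = (splitSite L m y').2 := by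
  have hL : 0 < L := Nat.pos_of_ne_zero fun h => by
    have := y.1.2; simp [h] at this
  by_cases h1 : y.1 = y'.1
  · have h2 : ((y.2 : ℤ) - y'.2).natAbs = 1 := by
      unfold dist1 at h; rw [h1] at h; simpa using h
    rcases mirror_adj hL _ _ h2 with ⟨a, b⟩ | b
    · left
      refine ⟨Prod.ext (by rw [show (splitSite L m y).1.1 = (splitAxis L m y.1).1 from rfl,
        show (splitSite L m y').1.1 = (splitAxis L m y'.1).1 from rfl, h1]) (Fin.ext a), ?_⟩
      show ((mirror L (y.1.1 / L) (y.1.1 % L) : ℤ) - mirror L (y'.1.1 / L) (y'.1.1 % L)).natAbs + _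
        = 1
      rw [h1, sub_self, Int.natAbs_zero, zero_add]
      exact b
    · right
      exact Prod.ext (Fin.ext (by show mirror L (y.1.1 / L) _ = mirror L (y'.1.1 / L) _; rw [h1]))
        (Fin.ext b)
  · have h1' : y.1.1 ≠ y'.1.1 := fun e => h1 (Fin.ext e)
    have h2 : y.2 = y'.2 := by
      apply Fin.ext; unfold dist1 at h; omega
    have h3 : ((y.1 : ℤ) - y'.1).natAbs = 1 := by
      unfold dist1 at h; omega
    rcases mirror_adj hL _ _ h3 with ⟨a, b⟩ | b
    · left
      refine ⟨Prod.ext (Fin.ext a) (by rw [show (splitSite L m y).1.2 = (splitAxis L m y.2).1 from rfl,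
        show (splitSite L m y').1.2 = (splitAxis L m y'.2).1 from rfl, h2]), ?_⟩
      show _ + ((mirror L (y.2.1 / L) (y.2.1 % L) : ℤ) - mirror L (y'.2.1 / L) (y'.2.1 % L)).natAbs
        = 1
      rw [h2, sub_self, Int.natAbs_zero, add_zero]
      exact b
    · right
      exact Prod.ext (Fin.ext b)
        (Fin.ext (by show mirror L (y.2.1 / L) _ = mirror L (y'.2.1 / L) _; rw [h2]))

theorem card_edge_tileSet (A : Finset (Site L)) :
    (edgeBoundary (tileSet m A)).card ≤ m ^ 2 * (edgeBoundary A).card := by
  refine (card_le_card_of_injOn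
    (fun e => ((splitSite L m e.1).1, ((splitSite L m e.1).2, (splitSite L m e.2).2)))
    (t := (univ : Finset (Fin m × Fin m)) ×ˢ edgeBoundary A) ?_ ?_).trans ?_
  · intro e he
    simp only [edgeBoundary, coe_filter, Set.mem_ofPred_eq, mem_product, mem_compl, mem_tileSet] at he
    obtain ⟨⟨ha, hb⟩, hd⟩ := he
    rcases adj_tile e.1 e.2 hd with ⟨-, h⟩ | h
    · simp [edgeBoundary, ha, hb, h]
    · exact absurd (h ▸ ha) hb
  · intro e he e' he' heq
    simp only [edgeBoundary, coe_filter, Set.mem_ofPred_eq, mem_product, mem_compl, mem_tileSet] at he he'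
    simp only [Prod.mk.injEq] at heq
    have hsame : ∀ f : Site (m * L) × Site (m * L), ((splitSite L m f.1).2 ∈ A ∧
        (splitSite L m f.2).2 ∉ A) ∧ dist1 f.1 f.2 = 1 →
        (splitSite L m f.2).1 = (splitSite L m f.1).1 := by
      intro f hf
      rcases adj_tile f.1 f.2 hf.2 with ⟨h, -⟩ | h
      · exact h.symm
      · exact absurd (h ▸ hf.1.1) hf.1.2
    refine Prod.ext ((splitSite L m).injective (Prod.ext heq.1 heq.2.1))
      ((splitSite L m).injective (Prod.ext ?_ heq.2.2))
    rw [hsame e he, hsame e' he']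
    exact heq.1
  · simp [sq]

variable [NeZero q]

/-- The configuration with one tile forgotten. -/
def offTile (t : Fin m × Fin m) (σ : Conf q (m * L)) : Conf q (m * L) :=
  fun y => if (splitSite L m y).1 = t then 0 else σ y

theorem offTile_eq_iff (t : Fin m × Fin m) (σ τ : Conf q (m * L)) :
    offTile t σ = offTile t τ ↔ ∀ y, (splitSite L m y).1 ≠ t → σ y = τ y := by
  refine ⟨fun h y hy => by simpa [offTile, hy] using congrFun h y, fun h => funext fun y => ?_⟩
  by_cases hy : (splitSite L m y).1 = t
  · simp [offTile, hy]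
  · simp [offTile, hy, h y hy]

theorem tile_injective (t : Fin m × Fin m) :
    Function.Injective fun σ : Conf q (m * L) => (cfgs q L m σ t, offTile t σ) := by
  intro σ τ h
  simp only [Prod.mk.injEq] at h
  funext y
  by_cases hy : (splitSite L m y).1 = t
  · have := congrFun h.1 (splitSite L m y).2
    rwa [← hy, cfgs_split, cfgs_split] at this
  · exact (offTile_eq_iff t σ τ).1 h.2 y hy

/-- An operator placed in one tile. -/
noncomputable def inTile (t : Fin m × Fin m) (M : Op q L) : Op q (m * L) :=
  pull (fun σ => cfgs q L m σ t) (offTile t) M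

theorem inTile_eq_kron (t : Fin m × Fin m) (M : Op q L) :
    inTile t M = (kron (Function.update (fun _ => (1 : Op q L)) t M)).submatrix
      (cfgs q L m) (cfgs q L m) := by
  ext σ τ
  simp only [inTile, pull, kron, submatrix_apply, of_apply]
  rw [← mul_prod_erase univ _ (mem_univ t), Function.update_self]
  by_cases h : offTile t σ = offTile t τ
  · rw [if_pos h, prod_eq_one, mul_one]
    intro s hs
    rw [Function.update_of_ne (ne_of_mem_erase hs), one_apply, if_pos]
    funext x
    refine (offTile_eq_iff t σ τ).1 h _ ?_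
    rw [Equiv.apply_symm_apply]
    exact ne_of_mem_erase hs
  · rw [if_neg h]
    rw [offTile_eq_iff] at h
    push Not at h
    obtain ⟨y, hy, hne⟩ := h
    rw [prod_eq_zero (i := (splitSite L m y).1) (mem_erase.2 ⟨hy, mem_univ _⟩), mul_zero]
    rw [Function.update_of_ne hy, one_apply, if_neg]
    intro e
    have := congrFun e (splitSite L m y).2
    rw [cfgs_split, cfgs_split] at this
    exact hne this

theorem place_injective (t : Fin m × Fin m) :
    Function.Injective fun x => (splitSite L m).symm (t, x) :=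
  fun x x' h => by simpa using h

/-- The supports of the tiled terms. -/
def tileSupp (m : ℕ) (i : (Fin m × Fin m) × Finset (Site L)) : Finset (Site (m * L)) :=
  i.2.map ⟨fun x => (splitSite L m).symm (i.1, x), place_injective i.1⟩

theorem mem_tileSupp {i : (Fin m × Fin m) × Finset (Site L)} {y : Site (m * L)} :
    y ∈ tileSupp m i ↔ (splitSite L m y).1 = i.1 ∧ (splitSite L m y).2 ∈ i.2 := by
  simp only [tileSupp, mem_map]
  constructor
  · rintro ⟨x, hx, rfl⟩
    show ((splitSite L m) ((splitSite L m).symm (i.1, x))).1 = i.1 ∧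
      ((splitSite L m) ((splitSite L m).symm (i.1, x))).2 ∈ i.2
    simp [hx]
  · rintro ⟨h1, h2⟩
    refine ⟨_, h2, ?_⟩
    show (splitSite L m).symm (i.1, _) = y
    simp [← h1]

theorem admissible_tile {R : ℕ} {J : ℝ} (hJ : 0 ≤ J) {h : Finset (Site L) → Op q L}
    (hh : Admissible R J h) :
    Admissible R J (collect (tileSupp m) fun i => inTile i.1 (h i.2)) where
  herm X' := isHermitian_sum _ _ fun i _ => pull_isHermitian _ _ (hh.herm i.2)
  acts X' := ActsOn.sum _ _ fun i hi => by
    obtain rfl := (mem_filter.1 hi).2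
    have hin : ∀ σ τ : Conf q (m * L), (∀ y, y ∉ tileSupp m i → σ y = τ y) →
        offTile i.1 σ = offTile i.1 τ ∧ ∀ x, x ∉ i.2 → cfgs q L m σ i.1 x = cfgs q L m τ i.1 x := by
      intro σ τ hst
      refine ⟨(offTile_eq_iff _ _ _).2 fun y hy => hst y fun hm => hy (mem_tileSupp.1 hm).1,
        fun x hx => hst _ fun hm => hx ?_⟩
      simpa using (mem_tileSupp.1 hm).2
    refine actsOn_of _ _ (fun σ τ y hy hne => ?_) fun σ τ σ' τ' h1 h2 h3 h4 => ?_
    · simp only [inTile, pull, of_apply]
      split_ifs with ho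
      · have ht : (splitSite L m y).1 = i.1 := by
          by_contra ht
          exact hne ((offTile_eq_iff _ _ _).1 ho y ht)
        refine (hh.acts i.2).eq_zero _ _ (x := (splitSite L m y).2)
          (fun hx => hy (mem_tileSupp.2 ⟨ht, hx⟩)) ?_
        rw [← ht, cfgs_split, cfgs_split]
        exact hne
      · rfl
    · simp only [inTile, pull, of_apply]
      rw [if_pos (hin σ τ h1).1, if_pos (hin σ' τ' h2).1]
      refine (hh.acts i.2).congr (hin σ τ h1).2 (hin σ' τ' h2).2 (fun x hx => ?_) fun x hx => ?_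
      · exact h3 _ (mem_tileSupp.2 ⟨by simp, by simpa using hx⟩)
      · exact h4 _ (mem_tileSupp.2 ⟨by simp, by simpa using hx⟩)
  range X' hne y hy y' hy' := by
    obtain ⟨i, hi, hterm⟩ := exists_ne_zero_of_sum_ne_zero hne
    obtain rfl := (mem_filter.1 hi).2
    obtain ⟨e, hx⟩ := mem_tileSupp.1 hy
    obtain ⟨e', hx'⟩ := mem_tileSupp.1 hy'
    have hd := dist_tile i.1 (splitSite L m y).2 (splitSite L m y').2
    rw [show (i.1, (splitSite L m y).2) = splitSite L m y from Prod.ext e.symm rfl,
      show (i.1, (splitSite L m y').2) = splitSite L m y' from Prod.ext e'.symm rfl,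
      Equiv.symm_apply_apply, Equiv.symm_apply_apply] at hd
    rw [hd]
    refine hh.range i.2 (fun hz => hterm ?_) _ hx _ hx'
    ext σ τ
    simp [inTile, pull, hz]
  empty := sum_eq_zero fun i hi => by
    have h2 : i.2 = ∅ := by simpa [tileSupp] using (mem_filter.1 hi).2
    ext σ τ
    simp [inTile, pull, h2, hh.empty]
  norm X' := by
    rcases X'.eq_empty_or_nonempty with rfl | ⟨y, hy⟩
    · rw [collect, sum_eq_zero fun i hi => ?_]
      · exact normLe_zero _
      · have h2 : i.2 = ∅ := by simpa [tileSupp] using (mem_filter.1 hi).2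
        ext σ τ
        simp [inTile, pull, h2, hh.empty]
    · refine NormLe.mono (by positivity) ?_ (NormLe.sum _ _ hJ fun i _ =>
        normLe_pull (tile_injective i.1) (hh.norm i.2))
      refine mul_le_of_le_one_left hJ ?_
      have : (univ.filter fun i => tileSupp (L := L) m i = X').card ≤ 1 := by
        refine card_le_one.2 fun i hi i' hi' => ?_
        have e := (mem_filter.1 hi).2
        have e' := (mem_filter.1 hi').2
        have ht : i.1 = i'.1 := by
          rw [← (mem_tileSupp.1 (e ▸ hy)).1, ← (mem_tileSupp.1 (e' ▸ hy)).1]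
        obtain ⟨t, X⟩ := i
        obtain ⟨t', X'⟩ := i'
        subst ht
        refine Prod.ext rfl ?_
        exact Finset.map_injective _ (e.trans e'.symm)
      exact_mod_cast this

/-- The product of the ground states. -/
noncomputable def tileState (m : ℕ) (Ω : Conf q L → ℂ) : Conf q (m * L) → ℂ :=
  fun σ => ∏ t, Ω (cfgs q L m σ t)

theorem hamOn_tile (h : Finset (Site L) → Op q L) :
    hamOn (collect (tileSupp m) fun i => inTile i.1 (h i.2)) univ
      = ∑ t : Fin m × Fin m, inTile t (hamOn h univ) := by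
  rw [hamOn_collect, Fintype.sum_prod_type]
  refine sum_congr rfl fun t _ => ?_
  rw [hamOn, powerset_univ]
  unfold inTile
  rw [pull_sum]

theorem gapped_tile {h : Finset (Site L) → Op q L} {E Δ : ℝ} {Ω : Conf q L → ℂ}
    (hherm : ∀ X, (h X).IsHermitian) (hΔ : 0 < Δ) (hg : Gapped (hamOn h univ) E Δ Ω) :
    Gapped (hamOn (collect (tileSupp m) fun i => inTile i.1 (h i.2)) univ)
      ((m : ℝ) ^ 2 * E) Δ (tileState m Ω) := by
  classical
  have hH : (hamOn h univ).IsHermitian := isHermitian_sum _ _ fun X _ => hherm X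
  obtain ⟨U, d, i₀, z, hU, hdec, hd0, hother, hΩ⟩ := hg.exists_diag hH hΔ
  have hz : Complex.normSq z = 1 := by
    have h1 := hg.1
    have hcol : (fun x => U x i₀) = U *ᵥ Pi.single i₀ 1 := by
      funext x; simp [mulVec_single]
    rw [hΩ, hcol, ← mulVec_smul, nsq_unitary U hU, nsq,
      Finset.sum_eq_single i₀ (fun j _ hj => by simp [hj]) (by simp)] at h1
    simpa using h1
  let e := cfgs q L m
  set W : Op q (m * L) := (kron fun _ : Fin m × Fin m => U).submatrix e e
  have hW : Wᴴ * W = 1 := by
    simp only [W, conjTranspose_submatrix, submatrix_mul_equiv, kron_conjTranspose, kron_mul, hU,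
      kron_one, submatrix_one_equiv]
  have hi : ∀ t, inTile t (hamOn h univ)
      = W * diagonal (fun σ => ((d (e σ t) : ℝ) : ℂ)) * Wᴴ := by
    intro t
    have hdiag : kron (Function.update (fun _ => (1 : Op q L)) t (diagonal fun i => (d i : ℂ)))
        = diagonal fun f : Fin m × Fin m → Conf q L => (d (f t) : ℂ) := by
      rw [show Function.update (fun _ => (1 : Op q L)) t (diagonal fun i => (d i : ℂ))
        = fun s => diagonal fun i => if s = t then (d i : ℂ) else 1 by
        funext s
        by_cases hs : s = t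
        · subst hs; simp
        · simp [hs], kron_diagonal]
      congr 1
      funext f
      rw [prod_eq_single t (fun s _ hs => by simp [hs]) (by simp), if_pos rfl]
    rw [show (diagonal fun σ => ((d (e σ t) : ℝ) : ℂ))
        = (diagonal fun f : Fin m × Fin m → Conf q L => (d (f t) : ℂ)).submatrix e e by
      rw [submatrix_diagonal_equiv]; rfl, ← hdiag, inTile_eq_kron]
    simp only [W, conjTranspose_submatrix, submatrix_mul_equiv, kron_conjTranspose, kron_mul]
    congr 2
    funext s
    by_cases hs : s = t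
    · subst hs; rw [Function.update_self, Function.update_self]; exact hdec
    · rw [Function.update_of_ne hs, Function.update_of_ne hs, Matrix.mul_one,
        mul_eq_one_comm.1 hU]
  have hH' : hamOn (collect (tileSupp m) fun i => inTile i.1 (h i.2)) univ
      = W * diagonal (fun σ => ((∑ t, d (e σ t) : ℝ) : ℂ)) * Wᴴ := by
    rw [hamOn_tile, sum_congr rfl fun t _ => hi t, ← Finset.sum_mul, ← Finset.mul_sum]
    congr 2
    ext σ τ
    by_cases hστ : σ = τ
    · subst hστ; simp [Matrix.sum_apply]
    · simp [Matrix.sum_apply, hστ]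
  set c₀ : Conf q (m * L) := e.symm fun _ => i₀
  have hst : tileState m Ω = (z ^ (m ^ 2)) • fun σ => W σ c₀ := by
    funext σ
    simp only [tileState, W, submatrix_apply, c₀, Equiv.apply_symm_apply, kron, of_apply,
      Pi.smul_apply, smul_eq_mul, hΩ, prod_mul_distrib, prod_const]
    rw [card_univ, Fintype.card_prod, Fintype.card_fin, sq]
  rw [hst]
  refine gapped_of_diag W hW _ c₀ _ (by rw [map_pow, hz, one_pow]) hH' ?_ fun σ hσ => ?_
  · simp [c₀, hd0, sq]
  · obtain ⟨t, ht⟩ : ∃ t, e σ t ≠ i₀ := by
      by_contra hno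
      push Not at hno
      exact hσ (by simp only [c₀]; rw [← funext hno, Equiv.symm_apply_apply])
    have hle : ∀ s, E ≤ d (e σ s) := fun s => by
      by_cases hs : e σ s = i₀
      · rw [hs, hd0]
      · linarith [hother _ hs]
    have h1 := hother _ ht
    have h2 : ∑ s : Fin m × Fin m, (d (e σ s) - E) ≥ d (e σ t) - E :=
      single_le_sum (fun s _ => sub_nonneg.2 (hle s)) (mem_univ t)
    simp only [sum_sub_distrib, sum_const, card_univ, Fintype.card_prod, Fintype.card_fin,
      nsmul_eq_mul, Nat.cast_mul] at h2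
    rw [sq]
    linarith

theorem reduced_trace {q L : ℕ} (A : Finset (Site L)) (v : Conf q L → ℂ) :
    ∑ i, (reduced_isHermitian A v).eigenvalues i = nsq v := by
  classical
  have h := (reduced_isHermitian A v).trace_eq_sum_eigenvalues
  have h' : (reduced A v).trace = (nsq v : ℂ) := by
    simp only [Matrix.trace, Matrix.diag, reduced, mul_apply, conjTranspose_apply, reshape,
      of_apply, nsq]
    rw [← (splitConf A).sum_comp (fun σ => Complex.normSq (v σ)), Fintype.sum_prod_type]
    push_cast
    refine sum_congr rfl fun a _ => sum_congr rfl fun b _ => ?_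
    exact Complex.mul_conj _
  exact Complex.ofReal_inj.1 (by push_cast; exact h.symm.trans h')

theorem specEntropy_submatrix {n n' : Type*} [Fintype n] [DecidableEq n] [Fintype n']
    [DecidableEq n'] (e : n' ≃ n) (M : Matrix n n ℂ) :
    specEntropy (M.submatrix e e) = specEntropy M := by
  unfold specEntropy
  rw [show M.submatrix e e = Matrix.reindex e.symm e.symm M from rfl, charpoly_reindex]

omit [NeZero q] in
/-- Entropy is additive over the tiles. -/
theorem entropy_tile (A : Finset (Site L)) (Ω : Conf q L → ℂ) (hn : nsq Ω = 1) :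
    entropy (tileSet m A) (tileState m Ω) = (m : ℝ) ^ 2 * entropy A Ω := by
  classical
  let ea : ({y // y ∈ tileSet m A} → Fin q) ≃ (Fin m × Fin m → {x // x ∈ A} → Fin q) :=
    { toFun := fun a t x => a ⟨(splitSite L m).symm (t, x.1), mem_tileSet.2 (by simp [x.2])⟩
      invFun := fun f y => f (splitSite L m y.1).1 ⟨_, mem_tileSet.1 y.2⟩
      left_inv := fun a => by
        funext y
        exact congrArg a (Subtype.ext (by simp))
      right_inv := fun f => by
        funext t x
        show f _ _ = f t x
        congr 1 <;> simp }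
  let eb : ({y // y ∉ tileSet m A} → Fin q) ≃ (Fin m × Fin m → {x // x ∉ A} → Fin q) :=
    { toFun := fun a t x => a ⟨(splitSite L m).symm (t, x.1), fun h => x.2 (by
        simpa using mem_tileSet.1 h)⟩
      invFun := fun f y => f (splitSite L m y.1).1 ⟨_, fun h => y.2 (mem_tileSet.2 h)⟩
      left_inv := fun a => by
        funext y
        exact congrArg a (Subtype.ext (by simp))
      right_inv := fun f => by
        funext t x
        show f _ _ = f t x
        congr 1 <;> simp }
  have hre : reshape (tileSet m A) (tileState m Ω)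
      = (kron fun _ : Fin m × Fin m => reshape A Ω).submatrix ea eb := by
    ext a b
    simp only [reshape, of_apply, tileState, submatrix_apply, kron]
    refine prod_congr rfl fun t _ => congrArg Ω (funext fun x => ?_)
    by_cases hx : x ∈ A
    · rw [cfgs_apply, glue_mem _ _ _ hx, glue_mem _ _ _ (mem_tileSet.2 (by simp [hx]))]
      rfl
    · rw [cfgs_apply, glue_not_mem _ _ _ hx, glue_not_mem _ _ _ (fun h => hx (by
        simpa using mem_tileSet.1 h))]
      rfl
  rw [entropy_eq, entropy_eq]
  simp only [reduced]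
  rw [hre, conjTranspose_submatrix, submatrix_mul_equiv, specEntropy_submatrix,
    kron_conjTranspose, kron_mul]
  show specEntropy (kron fun _ : Fin m × Fin m => reduced A Ω) = _ * specEntropy (reduced A Ω)
  rw [specEntropy_kron _ (fun _ => reduced_isHermitian A Ω)]
  · simp [sq]
  · intro _
    rw [reduced_trace, hn]

/-- A gapped system repeated in `m²` mirrored tiles. -/
theorem exists_tile {R : ℕ} {J Δ E : ℝ} (hJ : 0 ≤ J) (hΔ : 0 < Δ)
    {h : Finset (Site L) → Op q L} {Ω : Conf q L → ℂ} (A : Finset (Site L))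
    (hh : Admissible R J h) (hg : Gapped (hamOn h univ) E Δ Ω) (m : ℕ) :
    ∃ (h' : Finset (Site (m * L)) → Op q (m * L)) (E' : ℝ) (Ω' : Conf q (m * L) → ℂ)
      (A' : Finset (Site (m * L))), Admissible R J h' ∧ Gapped (hamOn h' univ) E' Δ Ω' ∧
      entropy A' Ω' = (m : ℝ) ^ 2 * entropy A Ω ∧
      (edgeBoundary A').card ≤ m ^ 2 * (edgeBoundary A).card :=
  ⟨_, _, _, tileSet m A, admissible_tile hJ hh, gapped_tile hh.herm hΔ hg,
    entropy_tile A Ω hg.1, card_edge_tileSet A⟩

end Vale.Agent.P356
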